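import Vale.Agent.P284Y.Y.S12.C
import Vale.Agent.P284Z.F0.Three

/-!
# P284Y, block Y, one stage: the pole
-/

set_option linter.all false

open scoped ContDiff Topology ComplexOrder ENNReal Matrix
open Filter Set Function Metric MeasureTheory

noncomputable section

namespace Vale.Agent.P284Y.S12

open Vale.Agent.P272.K Vale.Agent.P284Z Vale.Agent.P284Z.J Real Vale.Agent.P284Y.Y

variable {n : ℕ} {Γ E : Type} [Group Γ] [TopologicalSpace E] [MulAction Γ E] {C : Cov n Γ E}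

theorem nsq_le (x : Cm n) : nsq x ≤ n * ‖x‖ ^ 2 := by
  simpa [nsq] using Finset.sum_le_card_nsmul Finset.univ (fun b => ‖x b‖ ^ 2) _
    fun b _ => pow_le_pow_left₀ (norm_nonneg _) (norm_le_pi_norm x b) 2

theorem nsq_as (c : ℂ) (u v : Cm n) : nsq (v + c • u) ≤ 2 * nsq v + 2 * (‖c‖ ^ 2 * nsq u) := by
  simp only [nsq, Finset.mul_sum, ← Finset.sum_add_distrib, Pi.add_apply, Pi.smul_apply,
    smul_eq_mul, ← mul_pow, ← norm_mul]
  exact Finset.sum_le_sum fun b _ => (pow_le_pow_left₀ (norm_nonneg _) (norm_add_le _ _) 2).trans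
    (by nlinarith [sq_nonneg (‖v b‖ - ‖c * u b‖)])

variable (C) in
/-- three circles -/
theorem three : ∃ K₀ : ℝ, ∀ (a : C.I) (w w' : Cm n → ℝ) (c T : ℝ), 0 ≤ c → c ≤ 1 →
    LPsh (fun y => exp (w' y)) (C.B (5 / 2) a) → ∀ x ∈ C.B 2 a,
    (∀ y ∈ C.B (5 / 2) a, w y ≤ w' y ∧ w' y ≤ w y + (nsq x + nsq y) ∧ w y ≤ 1 ∧
      (‖y - x‖ ≤ exp (-T) → w y ≤ -(c * T) + 1)) →
    ∀ y ∈ C.B 2 a, ∀ r > (0 : ℝ), ‖x - y‖ ≤ r → w y ≤ max (c * log r) (-(c * T)) + K₀ := by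
  obtain ⟨r₀, r0, hr⟩ := C.exists_r
  obtain ⟨D, hD⟩ := (isCompact_iUnion fun a => C.isCompact_cB 4 a).exists_bound_of_continuousOn
    (f := nsq (q := n)) (Continuous.continuousOn (by unfold nsq; fun_prop))
  have hD' : ∀ a, ∀ y ∈ C.B (5 / 2) a, nsq y ≤ |D| := fun a y hy => (le_abs_self _).trans
    ((hD y (mem_iUnion.2 ⟨a, C.B_sub_cB _ _ (C.B_mono (by norm_num) a hy)⟩)).trans (le_abs_self _))
  obtain ⟨R, R0, R1, R2⟩ : ∃ R, 0 < R ∧ R ≤ 1 ∧ R ≤ r₀ / 4 :=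
    ⟨min 1 (r₀ / 4), by positivity, min_le_left _ _, min_le_right _ _⟩
  have lR := log_nonpos R0.le R1
  have D0 := abs_nonneg D
  refine ⟨1 + 2 * |D| - log R, fun a w w' c T c0 c1 hP x hx h y hy r _ hr' => ?_⟩
  have m : C.B 2 a ⊆ C.B (5 / 2) a := C.B_mono (by norm_num) a
  have cR : log R ≤ c * log R := by nlinarith
  obtain ⟨y1, -, y2, y3⟩ := h y (m hy)
  rw [norm_sub_rev] at hr'
  rcases le_total ‖y - x‖ (exp (-T)) with h1 | h1
  · linarith [y3 h1, le_max_right (c * log r) (-(c * T))]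
  have h3 := mul_le_mul_of_nonneg_left (log_le_log ((exp_pos _).trans_le h1) hr') c0
  refine le_trans ?_ (add_le_add_left (h3.trans (le_max_left _ _)) _)
  rcases le_total R ‖y - x‖ with h2 | h2
  · linarith [mul_le_mul_of_nonneg_left (log_le_log R0 h2) c0]
  have hB : closedBall x R ⊆ C.B (5 / 2) a :=
    C.closedBall_sub (C.B_sub_cB _ _ hx) (by linarith [hr a])
  have e : ∀ t, 0 < t → exp (1 + 2 * |D| - log R) * t ^ c =
      exp (1 + 2 * |D| - log R + log t * c) := fun t ht => by rw [rpow_def_of_pos ht, ← exp_add]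
  have h4 := hP.annulus hB (exp_pos (-T)) (exp_pos (1 + 2 * |D| - log R)).le (c := c)
    (fun z hz => by
      have z1 := hB (closedBall_subset_closedBall (h1.trans h2) (sphere_subset_closedBall hz))
      obtain ⟨-, z2, -, z3⟩ := h z z1
      rw [e _ (exp_pos _), log_exp, exp_le_exp]
      linarith [z3 (mem_sphere_iff_norm.1 hz).le, hD' a z z1, hD' a x (m hx)])
    (fun z hz => by
      have z1 := hB (sphere_subset_closedBall hz)
      obtain ⟨-, z2, z3, -⟩ := h z z1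
      rw [e _ R0, exp_le_exp]
      linarith [hD' a z z1, hD' a x (m hx)]) h1 h2
  rw [e _ ((exp_pos _).trans_le h1), exp_le_exp] at h4
  linarith

variable [MeasurableSpace E] {μ : Measure (E × ℂ)} {P : Par} {S : MAS (P.Q C) μ}
  {s K₁ K₂ K₃ K : ℝ} {γ γ' : Γ} {a b : C.I} {x y : Cm n} {N : ℕ} {T κ ρ : ℝ}

namespace Cx
variable (c : Cx P S s K₁ K₂ K₃ K)
include c

theorem L_ge : (P.Z : ℝ) ^ 8 ≤ P.L s := P.pow_le_lo.trans c.stg.lo

theorem n_le : (n : ℝ) + 2 ≤ P.Z := by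
  nlinarith [c.hZ, one_le_pow₀ (n := 3) c.K1, (n.cast_nonneg : (0 : ℝ) ≤ n)]

theorem f_le (hx : x ∈ C.B (5 / 2) a) : P.f S s a x 1 ≤ 0 := div_nonpos_of_nonpos_of_nonneg
  (mul_nonpos_of_nonpos_of_nonneg (sub_nonpos.2 (c.g_le hx)) c.s_pos.le) c.G_pos.le

theorem κ_le (h : LO K P.Z N κ ρ) : κ ≤ 1 / 16 := by nlinarith [h.κρ, h.ρ_le, h.ρ_pos]

theorem lo_num (h : LO K P.Z N κ ρ) :
    5 ≤ 64 * N / κ ∧ 64 * N / κ ≤ P.Z ∧ 9 * (K / P.Z) ≤ κ / (8 * N) := by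
  have κ0 := c.κ0 h
  have n0 := h.n0
  have h1 := mul_le_mul_of_nonneg_right h.κN n0.le
  have h2 := mul_le_mul_of_nonneg_right h.N_le κ0.le
  refine ⟨(le_div_iff₀ κ0).2 (by linarith [c.κ_le h, h.n1]), (div_le_iff₀ κ0).2
    (by linarith [mul_le_mul_of_nonneg_right c.K1 n0.le]), ?_⟩
  rw [← mul_div_assoc, div_le_div_iff₀ P.Z_pos (by positivity)]
  linarith

/-- the energy at a smaller scale -/
theorem g_small (g : P.Good S s a x) (h1 : P.L s ≤ T) (h2 : T ≤ s) :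
    P.GG S s * (T - 4 * P.L s) ≤ s * P.g S T a x 1 := by
  have s0 := c.s_pos
  have d0 : 0 < 2 * s - T := by linarith
  have hx := C.B_mono (by norm_num : (5 / 2 : ℝ) ≤ 3) a g.1
  have m2 : 2 * s ∈ Icc P.lo P.hi := ⟨by linarith [c.lo_le], c.stg.hi⟩
  have h := c.r41.cvx a x hx T (2 * s) ((s - T) / (2 * s - T)) (c.stg.lo.trans h1) (by linarith)
    c.stg.hi (div_nonneg (by linarith) d0.le) ((div_le_one d0).2 (by linarith))
  rw [show (1 - (s - T) / (2 * s - T)) * T + (s - T) / (2 * s - T) * (2 * s) = s by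
    linear_combination div_mul_cancel₀ (s - T) d0.ne'] at h
  have h3 := mul_le_mul_of_nonneg_left h d0.le
  rw [mul_add, mul_add, ← mul_assoc, ← mul_assoc, mul_div_cancel₀ _ d0.ne', mul_sub, mul_one,
    mul_div_cancel₀ _ d0.ne'] at h3
  have h4 := (c.r41.g_le _ m2 a x g.1).trans c.stg.pig
  have h5 := mul_le_mul_of_nonneg_left (c.g_ge g) d0.le
  have h6 := mul_le_mul_of_nonneg_left h4 (sub_nonneg.2 h2)
  have z0 := P.Z_pos
  have G1 := c.G1
  have k1 := c.K1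
  have i1 : ((P.Z : ℝ) ^ 2)⁻¹ ≤ 1 := inv_le_one_of_one_le₀ (one_le_pow₀ P.one_le_Z)
  have i2 : 0 ≤ ((P.Z : ℝ) ^ 2)⁻¹ * (T * P.GG S s) := by
    have := c.L_pos.trans_le h1
    positivity
  have h7 : (P.Z : ℝ) ^ 2 * (8 * K) * exp (-T) ≤ 1 := by
    rw [exp_neg, ← div_eq_mul_inv, div_le_one (exp_pos _)]
    refine le_trans ?_ (((P.pow_le (show 3 ≤ 8 by norm_num)).trans (c.L_ge.trans h1)).trans
      ((le_add_of_nonneg_right zero_le_one).trans (add_one_le_exp T)))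
    rw [pow_succ _ 2]
    exact mul_le_mul_of_nonneg_left (by linarith [c.K1_le]) (sq_nonneg _)
  have h8 : (2 * s - T) * (K₁ * (P.g S (2 * s) a x 1 + 1) * exp (-T)) ≤
      2 * s * (K * (4 * P.GG S s) * exp (-T)) := by
    have := c.gen.G_nonneg _ (c.r41.densW _ (P.t * (2 * s))
      (c.std (γ := 1) g.1 (fr_one (by linarith)) m2.1 m2.2).ok)
    change 0 ≤ P.g S (2 * s) a x 1 at this
    have := c.r41.K_ge
    gcongr
    exacts [by linarith [c.L_pos], c.k₁, by nlinarith]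
  have h9 := mul_le_mul_of_nonneg_left h7 (mul_pos c.L_pos c.G_pos).le
  have e1 : P.L s = s * ((P.Z : ℝ) ^ 2)⁻¹ := div_eq_mul_inv _ _
  have e2 : 2 * s * (K * (4 * P.GG S s) * exp (-T)) =
      P.L s * P.GG S s * ((P.Z : ℝ) ^ 2 * (8 * K) * exp (-T)) := by
    rw [e1]
    field_simp
    ring
  rw [← e2, e1] at h9
  rw [e1]
  linarith

theorem std₁ (hx : x ∈ C.B (5 / 2) a) (h1 : P.L s ≤ T) (h2 : T ≤ s) : (b0 P T 1 a x 1).Std P :=
  c.std hx (fr_one (by linarith [c.L_pos])) (c.stg.lo.trans h1) (h2.trans c.le_hi)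

omit c in
theorem Λ₁_mem (h : 0 ≤ T) : P.t * T * (1 - (P.Z : ℝ)⁻¹) ∈ Icc (P.t * T / 2) (P.t * T) := by
  have h1 := mul_nonneg P.t_pos.le h
  have h2 : (P.Z : ℝ)⁻¹ ≤ 2⁻¹ := inv_anti₀ two_pos (by linarith [P.Z_ge'])
  constructor <;> nlinarith [inv_pos.2 P.Z_pos]

/-- the small probe lies in the well of the pole -/
theorem well (hx : x ∈ C.B (5 / 2) a) (hy : y ∈ C.B (5 / 2) a) (h1 : P.L s ≤ T) (h2 : T ≤ s)
    (hxy : nsq (x - y) ≤ exp (-T)) (z : E × ℂ) : S.φ (P.at0 C s 1 a y 1) z - P.B ≤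
      S.φ ((b0 P T 1 a x 1).W P (P.t * T * (1 - (P.Z : ℝ)⁻¹))) z := by
  have ok := (c.std₁ hx h1 h2).ok
  have z0 := P.Z_pos
  have z1 := P.Z_ge'
  have T0 := c.L_pos.trans_le h1
  have t0 := P.t_pos
  have i0 := inv_pos.2 z0
  have i1 := inv_le_one_of_one_le₀ P.one_le_Z
  have z3 : (P.Z : ℝ) ^ 3 ≤ P.B := (P.pow_le (show 3 ≤ 8 by norm_num)).trans
    ((le_mul_of_one_le_right (by positivity) ((one_le_pow₀ P.one_le_Z).trans c.sw_ge)).trans
      (P.sw_le_B c.le_hi))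
  refine Bk.cmp_low c.gen (c.dens0 hy c.fr1) (c.r41.densW _ _ ok) (e := (P.Z : ℝ)⁻¹ / 2)
    (D := P.t * T - K * P.t) (by positivity) (by linarith) (fun p hp => ?_) (fun p => ?_) ?_ z
  · obtain ⟨⟨u, hu, e⟩, hw⟩ := c.r41.supp _ ok p (right_ne_zero_of_mul hp)
    have hw' := pow_le_pow_left₀ (norm_nonneg _) hw 2
    rw [one_pow] at hu
    rw [one_mul, sq (exp _), ← exp_add, ← neg_add, add_halves] at hw'
    have h := c.r41.jt (b0 P s 1 a y 1) (P.t * s) T _ (c.std₀ hy c.fr1).ok rfl rfl c.Λ_pos.le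
      (by change _ ≤ 4 * (P.t * s); linarith [c.Λ_pos]) (c.dens0 hy c.fr1)
      le_rfl T0.le h2 _ (C.B_mono (by norm_num) a (c.r41.mem _ ok u (hu.trans (one_le_exp
        (half_pos T0).le)))) p.2 (by
          change nsq (x + _ • (1 : Mx n) *ᵥ u - y) ≤ _
          rw [add_sub_right_comm, Matrix.one_mulVec]
          refine (nsq_as _ _ _).trans ?_
          change _ + 2 * (‖((exp (-(T / 2)) : ℝ) : ℂ)‖ ^ 2 * _) ≤ _
          rw [norm_tau]
          nlinarith [exp_pos (-T)]) hw'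
    change S.φ _ (C.pt 1 a _, p.2) ≤ -(P.t * s * T / s) + _ at h
    change p.1 = C.pt 1 a _ at e
    rw [← e, mul_right_comm, mul_div_cancel_right₀ _ c.s_pos.ne'] at h
    linarith [mul_le_mul_of_nonneg_right c.k₁ t0.le]
  · refine (mul_le_mul_of_nonneg_left (c.r41.sup _ ok p).2 (exp_pos _).le).trans ?_
    rw [← exp_add, exp_le_exp, div_eq_mul_inv P.B]
    have h3 : 2 * (K + 1) ≤ (P.Z : ℝ)⁻¹ * T := by
      rw [le_inv_mul_iff₀ z0]
      refine le_trans ?_ ((P.pow_le (show 2 ≤ 8 by norm_num)).trans (c.L_ge.trans h1))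
      nlinarith [c.K1_le, c.K1]
    have h4 := mul_le_mul_of_nonneg_left h3 t0.le
    have h5 := mul_le_mul P.B_le_t i1 i0.le t0.le
    have h6 : 0 ≤ (P.Z : ℝ)⁻¹ * (K * P.t) := by have := c.K1; positivity
    linarith
  · have h3 : exp (-(2 * P.Z)) ≤ (P.Z : ℝ)⁻¹ / 2 := by
      rw [exp_neg, div_eq_mul_inv, ← mul_inv]
      exact inv_anti₀ (by positivity) (by linarith [add_one_le_exp (2 * P.Z)])
    refine le_trans ?_ (pow_le_pow_left₀ (exp_pos _).le h3 _)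
    have h4 := c.n_le
    refine (mul_le_mul_of_nonneg_right (show 2 ≤ exp 1 by linarith [add_one_le_exp 1])
      (exp_pos _).le).trans ?_
    rw [← exp_nat_mul, ← exp_add, exp_le_exp]
    push_cast
    linarith [mul_le_mul_of_nonneg_right h4 z0.le, mul_le_mul_of_nonneg_right z1 (sq_nonneg (P.Z : ℝ)),
      sq_nonneg (P.Z : ℝ)]

/-- the background of the small probe -/
theorem ex_small (g : P.Good S s a x) {η : ℝ} (h1 : 5 * P.L s ≤ T) (h2 : T ≤ s)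
    (hη : 4 * P.L s / T + 3 * (K / P.Z) ≤ η) :
    ∃ ν, Bg S ((b0 P T 1 a x 1).W P (P.t * T * (1 - (P.Z : ℝ)⁻¹))) (P.M₁ s) (17 * P.B)
      (exp (-(9 * P.B))) ν ∧ (1 - η) * (P.cb S s * P.M₁ s) ≤ S.G ν := by
  have l0 := c.L_pos
  have h1' : P.L s ≤ T := by linarith
  have T0 := l0.trans_le h1'
  have sd := c.std₁ g.1 h1' h2
  have hΛ := Λ₁_mem (P := P) T0.le
  have tT := mul_pos P.t_pos T0
  have q0 := P.q_pos
  have B0 := P.B_pos
  have hM : P.M₁ s ∈ Icc P.M₀ (P.sw T / 5) := ⟨c.M0_lt.le, by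
    rw [Par.M₁, Par.sw, div_right_comm]
    exact div_le_div_of_nonneg_right (by linarith) q0.le⟩
  obtain ⟨ν, h⟩ := c.r61.ex _ _ _ sd ⟨le_trans (by positivity) hΛ.1, hΛ.2⟩ hM
  have h' := (h.scale c.gen (c.r41.densW _ _ sd.ok) (t := 9 * P.B) (by positivity)).mono
    (le_of_eq (by ring) : _ ≤ 17 * P.B) (mul_le_of_le_one_right (exp_pos _).le c.κ1)
  refine ⟨_, h', le_trans ?_ (sub_le_comm.1 (abs_sub_le_iff.1 (c.r61.e2 _ _ _ _ _ sd hΛ hM
    (h'.mono le_rfl (exp_le_one_iff.2 (by linarith)))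
    (mul_le_mul_of_nonneg_right (by linarith [P.Z_ge']) B0.le))).2)⟩
  have h3 := c.r41.shift (b0 P T 1 a x 1) (P.t * T) _ (P.t * T) 0 sd.ok
    (by change P.t * T / 8 ≤ _; linarith) (by change _ ≤ 2 * (P.t * T); linarith) hΛ.2
    (by linarith) c.gen.pg.dens_zero
  rw [zero_add, zero_add] at h3
  have h4 := c.g_small g h1' h2
  change P.g S T a x 1 ≤ _ + _ * (_ * P.g S T a x 1 / _) at h3
  have g0 := c.gen.G_nonneg _ (c.r41.densW _ (P.t * T) sd.ok)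
  have g1 := c.gen.G_nonneg _ (c.r41.densW _ (P.t * T * (1 - (P.Z : ℝ)⁻¹)) sd.ok)
  change 0 ≤ P.g S T a x 1 at g0
  unfold Pb.c
  change _ ≤ _ / P.sw T * _ - _ * ((_ / P.sw T + 1) * _)
  have z0 := P.Z_pos
  have s0 := c.s_pos
  have k1 := c.K1
  have w0 : 0 < P.sw T := div_pos T0 q0
  have e1 : (P.t * T - P.t * T * (1 - (P.Z : ℝ)⁻¹)) * (K₁ * P.g S T a x 1 / (P.t * T)) =
      K₁ / P.Z * P.g S T a x 1 := by
    have := P.t_pos
    field_simp
    ring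
  have h5 : (1 - 4 * P.L s / T) * P.cb S s ≤ P.g S T a x 1 / P.sw T := by
    rw [show (1 - 4 * P.L s / T) * P.cb S s = P.GG S s * (T - 4 * P.L s) / s / P.sw T by
      unfold Par.cb Par.sw; field_simp]
    exact div_le_div_of_nonneg_right ((div_le_iff₀' s0).2 h4) w0.le
  have k0 : 0 ≤ K / P.Z := by positivity
  have kz : K / P.Z ≤ 1 := (div_le_one z0).2 (by linarith [c.K1_le])
  have h6 := div_le_div_of_nonneg_right (h3.trans (add_le_add_right (e1.trans_le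
    (mul_le_mul_of_nonneg_right (div_le_div_of_nonneg_right c.k₁ z0.le) g0)) _)) w0.le
  rw [add_div, mul_div_assoc] at h6
  have g2 := div_nonneg g1 w0.le
  have m0 := (pow_pos z0 4).trans c.M0_lt
  generalize S.G _ / P.sw T = u at *
  have h7 := mul_le_mul_of_nonneg_right (div_le_div_of_nonneg_right c.k₃ z0.le)
    (show 0 ≤ (u + 1) * P.M₁ s by positivity)
  refine le_trans ?_ (sub_le_sub_left h7 _)
  rw [← mul_assoc, ← mul_assoc, ← sub_mul]
  refine mul_le_mul_of_nonneg_right ?_ m0.le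
  have l1 : 0 ≤ 4 * P.L s / T := by positivity
  have l2 : 4 * P.L s / T ≤ 1 := (div_le_one T0).2 (by linarith)
  have h8 := mul_le_mul_of_nonneg_left h5 (sub_nonneg.2 kz)
  have h9 := mul_le_mul_of_nonneg_left (h8.trans (by linarith : _ ≤ u)) (sub_nonneg.2 kz)
  have h10 := mul_le_mul_of_nonneg_left c.cb1 k0
  have h11 := mul_le_mul_of_nonneg_right hη c.cb_pos.le
  have h12 : 0 ≤ (K / P.Z * (K / P.Z) * (1 - 4 * P.L s / T) + 2 * (K / P.Z * (4 * P.L s / T))) *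
      P.cb S s := mul_nonneg (add_nonneg (mul_nonneg (by positivity) (by linarith))
        (by positivity)) c.cb_pos.le
  linarith

variable (r : R87 P S s K)
include r

/-- **Y8** at good points -/
theorem deep (h : LO K P.Z N κ ρ) (gx : P.Good S s a x) (gy : P.Good S s a y)
    (hT : T = 64 * N / κ * P.L s) (hxy : nsq (x - y) ≤ exp (-T)) :
    uu P S N κ s a x 1 a y ≤ -(κ * P.L s) := by
  have κ0 := c.κ0 h
  have l0 := c.L_pos
  have n0 := h.n0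
  have k1 := c.K1
  have z0 := P.Z_pos
  obtain ⟨p1, p2, kz⟩ := c.lo_num h
  have h1 : 5 * P.L s ≤ T := hT ▸ mul_le_mul_of_nonneg_right p1 l0.le
  have h1' : P.L s ≤ T := by linarith
  have h2 : T ≤ s := by
    rw [hT, mul_comm]
    exact (mul_le_mul_of_nonneg_left (p2.trans (P.Z_le_pow one_le_two)) l0.le).trans c.s_eq.ge
  have k0 : 0 ≤ K / P.Z := by positivity
  obtain ⟨ν, hν, lo⟩ := c.ex_small gx (η := κ / (8 * N)) h1 h2 (by
    rw [show 4 * P.L s / T = κ / (8 * N) / 2 by rw [hT]; field_simp; ring]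
    linarith)
  have hM : P.M₁ s ∈ Icc P.M₀ (P.M₁ s) := ⟨c.M0_lt.le, le_rfl⟩
  have U0 : 0 < P.cb S s * P.M₁ s := Bk.Stg.U_pos (S := c.st) hM
  have u1 : 1 ≤ κ / (8 * N) * (P.cb S s * P.M₁ s) := by
    have : 1 ≤ K / P.Z * P.M₁ s := by
      rw [div_mul_eq_mul_div, one_le_div z0]
      exact le_trans ((P.Z_le_pow (by norm_num)).trans (M_ge hM)) (le_mul_of_one_le_left
        (by linarith [M_ge' hM]) k1)
    linarith [mul_le_mul_of_nonneg_right kz U0.le, mul_le_mul this c.cb1 zero_le_one (by linarith),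
      mul_nonneg k0 U0.le]
  have fr : ∀ z (hz : z ∈ C.B (5 / 2) a), nsq (x - z) ≤ exp (-T) →
      Bk.II S.G ν (c.nu (P.M₁ s) ⟨1, a, z, hz⟩) ≤ κ / (8 * N) * (P.cb S s * P.M₁ s) :=
    fun z hz d => by
    refine (Bk.bg_free c.gen (c.r41.densW _ _ (c.std₁ gx.1 h1' h2).ok) (c.bg hM ⟨1, a, z, hz⟩) hν
      (c.well gx.1 hz h1' h2 d)).trans ?_
    rwa [← exp_add, show 8 * P.B + P.B + -(9 * P.B) = 0 by ring, exp_zero]
  have up : S.G (c.nu (P.M₁ s) ⟨1, a, y, gy.1⟩) ≤ (1 + κ / (8 * N)) * (P.cb S s * P.M₁ s) := by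
    linarith [(abs_le.1 (c.e2 hM ⟨1, a, y, gy.1⟩)).2,
      mul_le_mul_of_nonneg_right (c.c_le gy.1) (by linarith [M_ge' hM] : 0 ≤ P.M₁ s),
      mul_le_mul_of_nonneg_right (show 2 * (K / P.Z) ≤ κ / (8 * N) by linarith) U0.le]
  have d : (c.lw r h).Deep ⟨1, a, x, gx.1⟩ ⟨1, a, y, gy.1⟩ (κ * P.M₁ s) :=
    Bk.Lv.pole (L := c.lw r h) (η := κ / (8 * N)) hM hν.dens gy
      (fr x gx.1 (by simp [nsq, exp_nonneg])) (fr y gy.1 hxy)
      lo up (show 8 * (κ / (8 * N)) ≤ (N : ℝ)⁻¹ * κ from le_of_eq (by field_simp))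
  rw [c.deep_iff r h, inv_one, one_mul, Par.M₁, mul_left_comm, mul_div_cancel₀ _ P.q_pos.ne'] at d
  exact d

/-- **Y8** near the diagonal -/
theorem pole₀ (h : LO K P.Z N κ ρ) (hx : x ∈ C.B (5 / 2) a) (hy : y ∈ C.B (5 / 2) a)
    (hxy : ‖y - x‖ ≤ exp (-(64 * N / κ * P.L s))) :
    P.vv S N κ s a x 1 a y 1 ≤ -(κ * P.L s) + 1 := by
  have l0 := c.L_pos
  have v := c.v_le r (γ := 1) h.N_pos h.nZ' (c.κ0 h).le c.fr1 hx hy
  have i1 := inv_le_one_of_one_le₀ P.one_le_Z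
  have fx := mul_le_mul_of_nonpos_right h.n1 (c.f_le hx)
  have fx' := c.f_le hx
  have fy := c.f_le hy
  have l1 := mul_le_mul_of_nonneg_right (c.κ_le h) l0.le
  by_cases gx : P.Good S s a x
  swap
  · linarith [not_le.1 fun h => gx ⟨hx, h⟩]
  by_cases gy : P.Good S s a y
  swap
  · linarith [not_le.1 fun h => gy ⟨hy, h⟩]
  have d := c.deep r h gx gy rfl (by
    have h1 := mul_le_mul_of_nonneg_right (c.lo_num h).1 l0.le
    generalize 64 * N / κ * P.L s = T at *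
    refine (nsq_le _).trans ?_
    rw [norm_sub_rev]
    refine (mul_le_mul_of_nonneg_left (pow_le_pow_left₀ (norm_nonneg _) hxy 2)
      n.cast_nonneg).trans ?_
    rw [sq, ← mul_assoc]
    refine mul_le_of_le_one_left (exp_pos _).le ?_
    rw [exp_neg, ← div_eq_mul_inv, div_le_one (exp_pos _)]
    linarith [add_one_le_exp T, c.L_ge, P.Z_le_pow (show 1 ≤ 8 by norm_num), c.n_le])
  unfold uu at d
  linarith

end Cx

variable (C) in
/-- **Y8** -/
theorem pole : ∃ K₀ : ℝ, ∀ (μ : Measure (E × ℂ)) (P : Par) (S : MAS (P.Q C) μ) (s K₁ K₂ K₃ K : ℝ)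
    (N : ℕ) (κ ρ : ℝ), Cx P S s K₁ K₂ K₃ K → R87 P S s K → LO K P.Z N κ ρ →
    ∀ a, ∀ x ∈ C.B 2 a, ∀ y ∈ C.B 2 a, ∀ r > (0 : ℝ), ‖x - y‖ ≤ r →
      P.vv S N κ s a x 1 a y 1 ≤
        max (κ ^ 2 / (64 * N) * log r) (-(κ ^ 2 / (64 * N) * P.L s)) + K₀ := by
  obtain ⟨K₀, h₀⟩ := three C
  refine ⟨K₀, fun μ P S s K₁ K₂ K₃ K N κ ρ c r h a x hx y hy t t0 ht => ?_⟩
  have κ0 := c.κ0 h
  have κ1 := c.κ_le h
  have n1 := h.n1
  have l0 := c.L_pos
  have hx' := C.B_mono (by norm_num : (2 : ℝ) ≤ 5 / 2) a hx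
  have e : κ ^ 2 / (64 * N) * (64 * N / κ * P.L s) = κ * P.L s := by field_simp
  have c1 : κ ^ 2 / (64 * N) ≤ κ := (div_le_iff₀ (by linarith)).2 (by nlinarith)
  have q1 : P.Z * P.q ≤ 1 := (mul_le_mul_of_nonneg_left P.q_le_inv P.Z_pos.le).trans_eq
    (mul_inv_cancel₀ P.Z_pos.ne')
  have q0 := mul_pos P.Z_pos P.q_pos
  refine (h₀ a (fun y => P.vv S N κ s a x 1 a y 1)
    (fun y => P.vv S N κ s a x 1 a y 1 + P.Z * P.q * (nsq x + nsq y)) _ (64 * N / κ * P.L s)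
    (by positivity) (by linarith) (((r.v_psh N κ a 1 a 1 h.N_pos h.nZ' c.fr1).lpsh_exp
      (.of_cont ((r.v_cont N κ a 1 a 1 h.N_pos h.nZ' c.fr1).add
        (Continuous.continuousOn (by unfold nsq; fun_prop))))).right hx') x hx
    (fun z hz => ?_) y hy t t0 ht).trans (add_le_add_left (max_le_max_left _ ?_) _)
  · have d0 : 0 ≤ nsq x + nsq z := by unfold nsq; positivity
    refine ⟨le_add_of_nonneg_right (by positivity),
      add_le_add_right (mul_le_of_le_one_left d0 q1) _, ?_, fun d => e ▸ c.pole₀ r h hx' hz d⟩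
    linarith [c.v_le r (γ := 1) h.N_pos h.nZ' κ0.le c.fr1 hx' hz, c.f_le hz,
      mul_nonpos_of_nonneg_of_nonpos h.n0.le (c.f_le hx'), inv_le_one_of_one_le₀ P.one_le_Z]
  · rw [e]
    exact neg_le_neg (mul_le_mul_of_nonneg_right c1 l0.le)

end Vale.Agent.P284Y.S12
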