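import Vale.Agent.P284Y.Y.S12.C
import Vale.Agent.P284Z.J.G0

/-!
# P284Y, block Y, one stage: almost invariant probabilities on the group
-/

set_option linter.all false

open scoped ContDiff Topology ComplexOrder ENNReal Matrix
open Filter Set Function Metric MeasureTheory

noncomputable section

namespace Vale.Agent.P284Y.S12

open Vale.Agent.P272.K Vale.Agent.P284Z Vale.Agent.P284Z.J Real Vale.Agent.P284Y.Y

theorem l1_div {Y : Type*} [MeasurableSpace Y] {μ : Measure Y} {f f' : Y → ℝ} {g g' : ℝ}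
    (hf : Integrable f μ) (hf' : Integrable f' μ) (h0 : ∀ y, 0 ≤ f' y) (e : ∫ y, f y ∂μ = g)
    (e' : ∫ y, f' y ∂μ = g') (g0 : 0 < g) (g0' : 0 < g') :
    ∫ y, |f y / g - f' y / g'| ∂μ ≤ 2 * (∫ y, |f y - f' y| ∂μ) / g := by
  have h1 : |g - g'| ≤ ∫ y, |f y - f' y| ∂μ := by
    rw [← e, ← e', ← integral_sub hf hf']
    exact abs_integral_le_integral_abs
  have i1 := (hf.sub hf').abs.div_const g
  have i2 := hf'.mul_const (|g - g'| / (g * g'))
  refine (integral_mono ((hf.div_const g).sub (hf'.div_const g')).abs (i1.add i2)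
    fun y => ?_).trans ?_
  · change |f y / g - f' y / g'| ≤ |f y - f' y| / g + f' y * (|g - g'| / (g * g'))
    rw [show f y / g - f' y / g' = (f y - f' y) / g - f' y * ((g - g') / (g * g')) by
      field_simp; ring]
    refine (abs_sub _ _).trans_eq ?_
    rw [abs_div, abs_mul, abs_div, abs_of_pos g0, abs_of_nonneg (h0 y), abs_of_pos (mul_pos g0 g0')]
  · rw [integral_add' i1 i2, integral_div, integral_mul_const, e',
      show g' * (|g - g'| / (g * g')) = |g - g'| / g by field_simp, ← add_div]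
    exact div_le_div_of_nonneg_right ((add_le_add_right h1 _).trans_eq (two_mul _).symm) g0.le

theorem l1_tri {Y : Type*} [MeasurableSpace Y] {μ : Measure Y} {f f' f'' : Y → ℝ}
    (hf : Integrable f μ) (hf' : Integrable f' μ) (hf'' : Integrable f'' μ) :
    ∫ y, |f y - f'' y| ∂μ ≤ ∫ y, |f' y - f y| ∂μ + ∫ y, |f' y - f'' y| ∂μ := by
  refine le_trans (integral_mono (hf.sub hf'').abs ((hf'.sub hf).abs.add (hf'.sub hf'').abs)
    fun y => (abs_sub_le _ (f' y) _).trans_eq ?_) (integral_add' (hf'.sub hf).abs (hf'.sub hf'').abs).le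
  rw [abs_sub_comm]
  rfl

variable {n : ℕ} {Γ E : Type} [Group Γ] [TopologicalSpace E] [MulAction Γ E] {C : Cov n Γ E}
  [MeasurableSpace E] {μ : Measure (E × ℂ)}

theorem ex_pu [T2Space E] [BorelSpace E] (C : Cov n Γ E) :
    ∃ Ψ : E → ℝ, Bk.PU fun (g : Γ) (y : E × ℂ) => Ψ (g⁻¹ • y.1) := by
  obtain ⟨ψ, h1, h2, -, h4⟩ := JGx.pu C
  refine ⟨fun y => ∑ a, ψ a y, fun g => ?_, fun g y => Finset.sum_nonneg fun a _ => h2 _ _,
    fun y => ?_⟩
  · exact ((continuous_finsetSum _ fun a _ => continuous_iff_continuousAt.2 fun y =>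
      JGx.sm_cont (h1 a y)).comp (C.cont g⁻¹)).measurable.comp measurable_fst
  · obtain ⟨T, hT⟩ := h4 y.1
    obtain ⟨h5, h6⟩ := hT.self_of_nhds
    exact h6 ▸ hasSum_sum_of_ne_finset_zero fun g hg => Finset.sum_eq_zero fun a _ => h5 g hg a

variable {P : Par} {S : MAS (P.Q C) μ} {s K₁ K₂ K₃ K : ℝ} {γ γ' : Γ} {a b : C.I} {x y : Cm n}
  {N : ℕ} {M κ ρ : ℝ}

namespace Cx
variable (c : Cx P S s K₁ K₂ K₃ K)
include c

theorem g_half (g : P.Good S s a x) : P.GG S s / 2 ≤ P.g S s a x 1 := by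
  have : ((P.Z : ℝ) ^ 2)⁻¹ ≤ 2⁻¹ :=
    inv_anti₀ two_pos (by linarith [P.Z_ge', P.Z_le_pow one_le_two])
  linarith [c.g_ge g, mul_le_mul_of_nonneg_right this c.G_pos.le]

theorem g_pos (g : P.Good S s a x) : 0 < P.g S s a x 1 := (half_pos c.G_pos).trans_le (c.g_half g)

variable [BorelSpace E]

/-- the background and the pole -/
theorem dd_pole (hM : M ∈ Icc P.M₀ (P.M₁ s)) (p : Pt C) :
    ∫ y, |S.DD (c.nu M p) y - S.DD (P.at0 C s p.γ p.a p.x 1) y / (P.sw s / (M + 4))| ∂μ ≤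
      4 * (K / P.Z) * (P.cb S s * M) := by
  have ok := (c.std₀ (γ := p.γ) p.mem c.fr1).ok
  have m1 := M_ge' hM
  have m5 := (c.mem5 hM).2
  have B1 := P.one_le_B
  have z0 := P.Z_pos
  have z1 := P.Z_ge'
  have c0 := c.cb_pos
  have k1 := c.K1
  have hs : ∀ y, P.at0 C s p.γ p.a p.x 1 y ≠ 0 → ‖y.2‖ ≤ exp (-(P.sw s / 2)) := fun y hy => by
    simpa [b0] using (c.r41.supp _ ok y (right_ne_zero_of_mul hy)).2
  have e8 : log (exp (-4) ^ 2) = -8 := by rw [log_pow, log_exp]; norm_num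
  have z2 : (P.Z : ℝ) ^ 2 ≤ P.B := (P.pow_le (show 2 ≤ 8 by norm_num)).trans
    ((le_mul_of_one_le_right (by positivity) ((one_le_pow₀ P.one_le_Z).trans c.sw_ge)).trans
      (P.sw_le_B c.le_hi))
  have z3 : 100 * P.Z ≤ P.B := le_trans (by nlinarith) z2
  have := c.gen.pg.sc
  refine (Bk.dd_bg c.gen (c.dens0 p.mem c.fr1) (S' := P.sw s) (r := exp (-4)) (K := 27 * P.B)
    (fun y hy => (pow_le_pow_left₀ (norm_nonneg _) (hs y hy) 2).trans_eq (by
      rw [sq, ← exp_add, ← neg_add, add_halves]))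
    (fun y hy => (hs y hy).trans (exp_le_exp.2 (by linarith))) (exp_pos _)
    (c.r41.glu (b0 P s p.γ p.a p.x 1) _ 1 _ _ ok zero_le_one (by norm_num)
      (by rw [one_mul]; exact (P.B_mul_sw s).ge) (exp_pos _) (by simp [b0, exp_nonneg])
      ((exp_le_exp.2 (by norm_num)).trans_lt (exp_neg_one_lt_d9.trans (by norm_num)))
      (by rw [e8]; linarith)) (c.bg hM p)
    (by rw [← exp_add, exp_le_one_iff]; linarith) (by linarith) (by linarith) (b := 3 * P.B)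
    (by linarith) (by rw [e8]; linarith) (exp_le_one_iff.2 (by norm_num))
    ((c.r61.int _ _ M _ _ (c.std₀ p.mem c.fr1) le_rfl hM.1 ((c.bg hM p).mono le_rfl c.κ1)).trans
      (exp_le_exp.2 (by linarith)))).trans ?_
  rw [c.g_eq p.mem c.fr1, div_div_eq_mul_div, mul_div_right_comm]
  have h1 := (abs_le.1 (c.e2 hM p)).1
  have h2 := c.c_le p.mem
  have h3 : P.cb S s ≤ (P.Z : ℝ)⁻¹ / 4 * (P.cb S s * M) := by
    rw [mul_left_comm]
    refine le_mul_of_one_le_right c0.le ?_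
    rw [div_mul_eq_mul_div, one_le_div (by norm_num), le_inv_mul_iff₀ z0]
    nlinarith [(P.pow_le (show 2 ≤ 4 by norm_num)).trans (M_ge hM)]
  have h4 : 100 * P.B ≤ (P.Z : ℝ)⁻¹ * P.cb S s := by
    rw [le_inv_mul_iff₀ z0]
    nlinarith [c.stg.big]
  have h5 := mul_le_mul_of_nonneg_right h4 (by linarith : 0 ≤ M)
  have h6 := mul_le_mul_of_nonneg_right k1 (show 0 ≤ (P.Z : ℝ)⁻¹ * (P.cb S s * M) by positivity)
  have h7 := mul_le_mul_of_nonneg_left m1 P.B_pos.le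
  rw [div_eq_mul_inv K] at h1 ⊢
  linarith

theorem dd_two (hM : M ∈ Icc P.M₀ (P.M₁ s)) (p p' : Pt C) (g : P.Good S s p.a p.x)
    (g' : P.Good S s p'.a p'.x) {d : ℝ} (h : c.st.Cl M d p p') (h' : c.st.Cl M d p' p) :
    ∫ y, |S.DD (P.at0 C s p.γ p.a p.x 1) y / P.g S s p.a p.x 1 -
      S.DD (P.at0 C s p'.γ p'.a p'.x 1) y / P.g S s p'.a p'.x 1| ∂μ ≤ 8 * d + 32 * (K / P.Z) := by
  have d1 := c.gen.dd _ (c.dens0 (γ := p.γ) p.mem c.fr1)
  have d2 := c.gen.dd _ (c.dens0 (γ := p'.γ) p'.mem c.fr1)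
  have i1 := (c.gen.dd _ (c.bg hM p).dens).1
  have i2 := (c.gen.dd _ (c.bg hM p').dens).1
  have m1 := M_ge' hM
  have w0 := c.sw_pos
  have U0 : 0 < P.cb S s * M := Bk.Stg.U_pos (S := c.st) hM
  have h0 : 0 < P.sw s / (M + 4) := div_pos w0 (by linarith)
  refine (l1_div d1.1 d2.1 d2.2.1 (d1.2.2.trans (c.g_eq p.mem c.fr1))
    (d2.2.2.trans (c.g_eq p'.mem c.fr1)) (c.g_pos g) (c.g_pos g')).trans ?_
  have h1 := l1_tri (d1.1.div_const (P.sw s / (M + 4))) i1 (d2.1.div_const (P.sw s / (M + 4)))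
  have h2 := l1_tri i1 i2 (d2.1.div_const (P.sw s / (M + 4)))
  have h3 := Bk.dd_close c.gen (c.bg hM p').dens (c.bg hM p).dens
  have h4 := c.dd_pole hM p
  have h5 := c.dd_pole hM p'
  simp only [← sub_div, abs_div, abs_of_pos h0] at h1
  rw [integral_div] at h1
  change Bk.II S.G (c.nu M p') (c.nu M p) ≤ d * (P.cb S s * M) at h
  change Bk.II S.G (c.nu M p) (c.nu M p') ≤ d * (P.cb S s * M) at h'
  have h6 := (div_le_iff₀ h0).1 (h1.trans (by linarith :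
    _ ≤ (2 * d + 8 * (K / P.Z)) * (P.cb S s * M)))
  have h7 : 0 ≤ 2 * d + 8 * (K / P.Z) := nonneg_of_mul_nonneg_left (nonneg_of_mul_nonneg_left
    ((integral_nonneg fun _ => abs_nonneg _).trans h6) h0) U0
  have h8 : P.cb S s * M * (P.sw s / (M + 4)) ≤ 2 * P.g S s p.a p.x 1 := by
    refine le_trans ?_ (by linarith [c.g_half g] : P.GG S s ≤ _)
    rw [c.G_eq, mul_assoc, ← mul_div_assoc]
    exact mul_le_mul_of_nonneg_left ((div_le_iff₀ (by linarith)).2 (by linarith)) c.cb_pos.le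
  rw [div_le_iff₀ (c.g_pos g)]
  linarith [mul_le_mul_of_nonneg_left h8 h7]

theorem dd_near (r : R87 P S s K) (h : LO K P.Z N κ ρ) (p p' : Pt C) (g : P.Good S s p.a p.x)
    (g' : P.Good S s p'.a p'.x) (hu : uu P S N κ s p.a p.x (p.γ⁻¹ * p'.γ) p'.a p'.x ≤ 0) :
    ∫ y, |S.DD (P.at0 C s p.γ p.a p.x 1) y / P.g S s p.a p.x 1 -
      S.DD (P.at0 C s p'.γ p'.a p'.x 1) y / P.g S s p'.a p'.x 1| ∂μ ≤ 50 * ρ := by
  have d : (c.lw r h).Deep p p' 0 := by rwa [c.deep_iff r h, mul_zero, neg_zero]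
  obtain ⟨M, hM, -, cl⟩ := Bk.Lv.Dp.close (Or.inl d) le_rfl g g'
  refine (c.dd_two hM p p' g g' (d := 5 * ρ) (cl M hM.1 le_rfl).1 (cl M hM.1 le_rfl).2).trans ?_
  nlinarith [h.κρ, h.ρ_le, h.ρ_pos, h.div_Z (zero_le_one.trans c.K1)]

theorem dd_shift (hy : y ∈ C.B (5 / 2) b) (γ : Γ) (F : E → ℝ) (A : ℝ) :
    ∫ p, S.DD (P.at0 C s 1 b y 1) p / A * F (γ • p.1) ∂μ =
      ∫ p, S.DD (P.at0 C s γ b y 1) p / A * F p.1 ∂μ := by
  have := c.gen.pg.sc
  let e : E × ℂ ≃ₜ E × ℂ := ⟨⟨isoY γ 1 0, isoY γ⁻¹ 1 0, fun p => by simp [isoY],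
    fun p => by simp [isoY]⟩, ((C.cont γ).comp continuous_fst).prodMk (by fun_prop),
    ((C.cont γ⁻¹).comp continuous_fst).prodMk (by fun_prop)⟩
  rw [← (c.gen.pg.aut e (c.r41.aut γ 1 0 norm_one)).1.integral_comp e.measurableEmbedding
    fun p => S.DD (P.at0 C s γ b y 1) p / A * F p.1]
  refine integral_congr_ae (Eventually.of_forall fun p => congrArg (· / A * F (γ • p.1)) ?_)
  have h := c.at0_sym (γ := 1) hy c.fr1 γ norm_one
  rw [mul_one] at h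
  rw [← h]
  refine congrArg _ (funext fun l => congrArg (1 - exp ·) (congrFun (c.r41.act γ 1 0 _ norm_one
    (c.gen.pg.dens_smul _ _ (exp_pos (-l)).le (c.dens0 (γ := γ) hy c.fr1))).2.1 p))

end Cx

/-- **Y7** -/
theorem reiter [Countable Γ] [T2Space E] [BorelSpace E] (c : Cx P S s K₁ K₂ K₃ K)
    (r : R87 P S s K) : ∃ m : C.I → Cm n → Γ → ℝ, (∀ a z g, 0 ≤ m a z g) ∧
      (∀ a z, P.Good S s a z → HasSum (m a z) 1) ∧ ∀ (N : ℕ) (κ ρ : ℝ), LO K P.Z N κ ρ →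
        ∀ a x γ b y, P.Good S s a x → P.Good S s b y → uu P S N κ s a x γ b y ≤ 0 →
          ∑' g, |m a x g - m b y (γ⁻¹ * g)| ≤ 50 * ρ := by
  obtain ⟨Ψ, hΨ⟩ := ex_pu C
  have d : ∀ γ {a x}, P.Good S s a x → _ := fun γ a x g => c.gen.dd _ (c.dens0 (γ := γ) g.1 c.fr1)
  have e : ∀ γ {a x}, P.Good S s a x → ∀ g : Γ,
      |∫ p, S.DD (P.at0 C s γ a x 1) p / P.g S s a x 1 * Ψ (g⁻¹ • p.1) ∂μ| = _ :=
    fun γ a x g h => abs_of_nonneg (integral_nonneg fun p =>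
      mul_nonneg (div_nonneg ((d γ g).2.1 p) (c.g_pos g).le) (hΨ.nonneg h p))
  refine ⟨fun a x g => |∫ p, S.DD (P.at0 C s 1 a x 1) p / P.g S s a x 1 * Ψ (g⁻¹ • p.1) ∂μ|,
    fun _ _ _ => abs_nonneg _, fun a x g => ?_, fun N κ ρ h a x γ b y gx gy hu => ?_⟩
  · have h := hΨ.hasSum ((d 1 g).1.div_const (P.g S s a x 1))
    rw [integral_div, (d 1 g).2.2, c.g_eq g.1 c.fr1, div_self (c.g_pos g).ne'] at h
    simpa only [e 1 g] using h
  have h1 := c.dd_near r h ⟨1, a, x, gx.1⟩ ⟨γ, b, y, gy.1⟩ gx gy (by rwa [inv_one, one_mul])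
  have h2 := hΨ.l1 ((d 1 gx).1.div_const (P.g S s a x 1)) ((d γ gy).1.div_const (P.g S s b y 1))
  refine le_trans (le_of_eq (tsum_congr fun g => ?_)) (h2.trans h1)
  beta_reduce
  rw [e 1 gx, e 1 gy, ← c.dd_shift gy.1 γ fun q => Ψ (g⁻¹ • q)]
  simp only [mul_inv_rev, inv_inv, mul_smul]

end Vale.Agent.P284Y.S12
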