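import Vale.Agent.P284Y.Y.R41
import Vale.Agent.P284Y.Y.R61
import Vale.Agent.P284Y.Y9.Par
import Vale.Agent.P284Z.F0.Cov

/-!
# P284Y, block Y, one stage: the context, the probes, first bounds
-/

set_option linter.all false

open scoped ContDiff Topology ComplexOrder ENNReal Matrix
open Filter Set Function Metric MeasureTheory

noncomputable section

namespace Vale.Agent.P284Y.S12

open Vale.Agent.P272.K Vale.Agent.P284Z Vale.Agent.P284Z.J Real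

variable {n : ℕ} {Γ E : Type} [Group Γ] [TopologicalSpace E] [MulAction Γ E] {C : Cov n Γ E}

/-- the probe at `w = 0` -/
def b0 (P : Par) (s : ℝ) (γ : Γ) (a : C.I) (x : Cm n) (ξ : Mx n) : Pb C :=
  ⟨γ, a, x, ξ, s, 0, P.sw s⟩

theorem fr_one {R : ℝ} (h : 0 ≤ R) : Fr R (1 : Mx n) := fun u => by
  have h0 : 0 ≤ nsq u := Finset.sum_nonneg fun _ _ => sq_nonneg _
  rw [Matrix.one_mulVec]
  exact ⟨mul_le_of_le_one_left h0 (exp_le_one_iff.2 (by linarith)),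
    le_mul_of_one_le_left h0 (one_le_exp (by linarith))⟩

theorem fr_mono {R R' : ℝ} {ξ : Mx n} (h : Fr R ξ) (h' : R ≤ R') : Fr R' ξ := fun u => by
  have h0 : 0 ≤ nsq u := Finset.sum_nonneg fun _ _ => sq_nonneg _
  exact ⟨le_trans (mul_le_mul_of_nonneg_right (exp_le_exp.2 (by linarith)) h0) (h u).1,
    (h u).2.trans (mul_le_mul_of_nonneg_right (exp_le_exp.2 (by linarith)) h0)⟩

variable [MeasurableSpace E] {μ : Measure (E × ℂ)}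

/-- the hypotheses at one stage -/
structure Cx (P : Par) (S : MAS (P.Q C) μ) (s K₁ K₂ K₃ K : ℝ) : Prop where
  gen : Gen S
  r41 : R41 P S K₁
  r58 : R58 P S K₂
  r61 : R61 P S K₃
  stg : P.Stg S s
  k₁ : K₁ ≤ K
  k₂ : K₂ ≤ K
  k₃ : K₃ ≤ K
  hZ : 200 * (n + 2) * K ^ 3 ≤ P.Z

variable {P : Par} {S : MAS (P.Q C) μ} {s K₁ K₂ K₃ K : ℝ} {γ γ' : Γ} {a b : C.I} {x y : Cm n}
  {ξ : Mx n} {N : ℕ} {τ : ℂ} {M : ℝ}

namespace Cx
variable (c : Cx P S s K₁ K₂ K₃ K)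
include c

theorem K1 : 1 ≤ K := c.r41.K_ge.trans c.k₁
theorem K_le : 400 * K ^ 3 ≤ P.Z := le_trans (by
  have := c.K1
  have : (0 : ℝ) ≤ n := n.cast_nonneg
  gcongr
  linarith) c.hZ
theorem K2_le : 400 * K ^ 2 ≤ P.Z :=
  le_trans (by have := c.K1; gcongr; norm_num) c.K_le
theorem K1_le : 400 * K ≤ P.Z := le_trans (by nlinarith [c.K1]) c.K2_le
theorem L_pos : 0 < P.L s := P.lo_pos.trans_le c.stg.lo
theorem s_eq : s = P.L s * (P.Z : ℝ) ^ 2 := (div_mul_cancel₀ _ (pow_pos P.Z_pos 2).ne').symm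
theorem s_pos : 0 < s := c.s_eq ▸ mul_pos c.L_pos (pow_pos P.Z_pos 2)
theorem lo_le : P.lo ≤ s := c.stg.lo.trans (P.L_le c.s_pos.le)
theorem le_hi : s ≤ P.hi := by linarith [c.stg.hi, c.s_pos]
theorem sw_pos : 0 < P.sw s := c.s_pos.trans_le (P.le_sw c.s_pos.le)
theorem B_le_cb : P.B ≤ P.cb S s := le_trans (by nlinarith [P.one_le_B]) c.stg.big
theorem cb1 : 1 ≤ P.cb S s := P.one_le_B.trans c.B_le_cb
theorem cb_pos : 0 < P.cb S s := one_pos.trans_le c.cb1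
theorem G_eq : P.GG S s = P.cb S s * P.sw s := (div_mul_cancel₀ _ c.sw_pos.ne').symm
theorem G_pos : 0 < P.GG S s := c.G_eq ▸ mul_pos c.cb_pos c.sw_pos
theorem sw_ge : (P.Z : ℝ) ^ 14 ≤ P.sw s := by
  rw [P.sw_eq, show 14 = 8 + 6 from rfl, pow_add]
  exact mul_le_mul_of_nonneg_right (P.pow_le_lo.trans c.lo_le) (pow_pos P.Z_pos 6).le
theorem G1 : 1 ≤ P.GG S s := c.G_eq ▸ one_le_mul_of_one_le_of_one_le c.cb1
  ((one_le_pow₀ P.one_le_Z).trans c.sw_ge)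
theorem Λ_pos : 0 < P.t * s := mul_pos P.t_pos c.s_pos
theorem M1_eq : P.M₁ s * (P.Z : ℝ) ^ 2 = P.sw s := by
  have := P.Z_pos
  have := P.q_pos
  unfold Par.M₁ Par.sw Par.L
  field_simp
theorem M0_lt : P.M₀ < P.M₁ s := by
  refine lt_of_mul_lt_mul_right ?_ (pow_pos P.Z_pos 2).le
  rw [c.M1_eq, Par.M₀, ← pow_add]
  exact (pow_lt_pow_right₀ (by linarith [P.Z_ge']) (by norm_num)).trans_le c.sw_ge
theorem M1_le : P.M₁ s ≤ P.sw s / 5 := by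
  rw [← c.M1_eq]
  nlinarith [c.M0_lt, pow_pos P.Z_pos 4, show P.M₀ = (P.Z : ℝ) ^ 4 from rfl, P.Z_ge',
    P.Z_le_pow (a := 2) (by norm_num)]
theorem cb_mul : P.cb S s * (s / P.GG S s) = P.q := by
  have := c.s_pos
  have := c.G_pos
  have := P.q_pos
  unfold Par.cb Par.sw
  field_simp

theorem std {s' : ℝ} (hx : x ∈ C.B (5 / 2) a) (hξ : Fr (s' / 8) ξ) (h1 : P.lo ≤ s')
    (h2 : s' ≤ P.hi) : (b0 P s' γ a x ξ).Std P := by
  have h0 : 0 ≤ P.sw s' := (P.lo_pos.le.trans h1).trans (P.le_sw (P.lo_pos.le.trans h1))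
  refine ⟨⟨C.B_mono (by norm_num) a hx, hξ, h1, h2, by simp [b0, exp_nonneg], half_le_self h0,
    le_mul_of_one_le_left h0 (by linarith [P.Z_ge'])⟩, rfl, rfl⟩

theorem fr1 : Fr (s / 8) (1 : Mx n) := fr_one (by linarith [c.s_pos])

theorem std₀ (hx : x ∈ C.B (5 / 2) a) (hξ : Fr (s / 8) ξ) : (b0 P s γ a x ξ).Std P :=
  c.std hx hξ c.lo_le c.le_hi

theorem okw (hx : x ∈ C.B (5 / 2) a) (hξ : Fr (s / 8) ξ) (h1 : 1 ≤ N) (h2 : N ≤ P.Z)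
    (hτ : ‖τ‖ ^ 2 ≤ exp (-9)) : ((b0 P s γ a x ξ).mv τ (N * P.sw s)).Ok P := by
  have h := (c.std₀ (γ := γ) hx hξ).ok
  have h3 : (1 : ℝ) ≤ N := by exact_mod_cast h1
  have h4 : (N : ℝ) ≤ P.Z := by exact_mod_cast h2
  exact ⟨h.x_mem, h.fr, h.lo, h.hi, hτ, by
    change P.sw s / 2 ≤ N * P.sw s
    nlinarith [c.sw_pos], mul_le_mul_of_nonneg_right (by linarith) c.sw_pos.le⟩

theorem W_sym {b : Pb C} (hb : b.Ok P) (g : Γ) {u : ℂ} (hu : ‖u‖ = 1) (l : ℝ) :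
    ({ b with γ := g * b.γ, w := u * b.w } : Pb C).W P l ∘ isoY g u 0 = b.W P l := by
  funext y
  have := c.r41.sym b g u 0 y hb hu
  rw [add_zero] at this
  exact congrArg (exp l * ·) this

theorem at0_sym (hx : x ∈ C.B (5 / 2) a) (hξ : Fr (s / 8) ξ) (g : Γ) {u : ℂ} (hu : ‖u‖ = 1) :
    P.at0 C s (g * γ) a x ξ ∘ isoY g u 0 = P.at0 C s γ a x ξ := by
  have := c.W_sym (c.std₀ (γ := γ) hx hξ).ok g hu (P.t * s)
  simp only [b0, mul_zero] at this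
  exact this

theorem dens0 (hx : x ∈ C.B (5 / 2) a) (hξ : Fr (s / 8) ξ) : (P.Q C).Dens (P.at0 C s γ a x ξ) :=
  c.r41.densW _ _ (c.std₀ hx hξ).ok

theorem densw (hx : x ∈ C.B (5 / 2) a) (hξ : Fr (s / 8) ξ) (h1 : 1 ≤ N) (h2 : N ≤ P.Z)
    (hτ : ‖τ‖ ^ 2 ≤ exp (-9)) : (P.Q C).Dens (P.atw C N s γ a x ξ τ) :=
  c.r41.densW _ _ (c.okw hx hξ h1 h2 hτ)

theorem g_eq (hx : x ∈ C.B (5 / 2) a) (hξ : Fr (s / 8) ξ) :
    S.G (P.at0 C s γ a x ξ) = P.g S s a x ξ := by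
  have h := (c.r41.act γ 1 0 _ norm_one (c.dens0 (γ := γ * 1) hx hξ)).2.2
  rw [c.at0_sym hx hξ γ norm_one, mul_one] at h
  exact h.symm

omit c in
theorem norm_tau (M : ℝ) : ‖((exp (-(M / 2)) : ℝ) : ℂ)‖ ^ 2 = exp (-M) := by
  rw [Complex.norm_real, Real.norm_of_nonneg (exp_pos _).le, sq, ← exp_add]
  congr 1
  ring

theorem J_eq (hx : x ∈ C.B (5 / 2) a) (hy : y ∈ C.B (5 / 2) b) (hξ : Fr (s / 8) ξ) (h1 : 1 ≤ N)
    (h2 : N ≤ P.Z) (hM : 9 ≤ M) (hτ : ‖τ‖ ^ 2 = exp (-M)) :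
    S.G (P.at0 C s γ a x 1 + P.atw C N s γ' b y ξ τ) = P.J S N s a x (γ⁻¹ * γ') b y ξ M := by
  have h9 := exp_le_exp.2 (neg_le_neg hM)
  have e0 : ((exp (-(M / 2)) : ℝ) : ℂ) ≠ 0 := Complex.ofReal_ne_zero.2 (exp_pos _).ne'
  have hu : ‖τ / (exp (-(M / 2)) : ℝ)‖ = 1 := by
    rw [norm_div, (pow_left_inj₀ (norm_nonneg _) (norm_nonneg _) two_ne_zero).1
      (hτ.trans (norm_tau M).symm), div_self (norm_ne_zero_iff.2 e0)]
  have h := (c.r41.act γ _ 0 _ hu (c.gen.pg.dens_add _ _ (c.dens0 (γ := γ) hx c.fr1)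
    (c.densw (γ := γ') hy hξ h1 h2 (hτ.trans_le h9)))).2.2
  have h3 := c.at0_sym (γ := 1) hx c.fr1 γ hu
  have h4 := c.W_sym (c.okw (γ := γ⁻¹ * γ') hy hξ h1 h2 ((norm_tau M).trans_le h9)) γ hu (P.t * s)
  simp only [b0, Pb.mv, mul_inv_cancel_left, div_mul_cancel₀ _ e0] at h4
  rw [mul_one] at h3
  rw [← h, Pi.add_comp, h3]
  exact congrArg (fun f => S.G (_ + f)) h4

theorem g_le (hx : x ∈ C.B (5 / 2) a) : P.g S s a x 1 ≤ P.GG S s :=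
  c.r41.g_le s ⟨c.lo_le, c.le_hi⟩ a x hx

theorem top {b : Pb C} (hb : b.Ok P) (e : b.s = s) : S.G (b.W P (P.t * s)) ≤ 2 * K * P.GG S s := by
  have h := c.r41.top b (P.t * s) hb (by rw [e]; linarith [c.Λ_pos])
  rw [e] at h
  refine h.trans ?_
  unfold Par.U
  nlinarith [c.G1, c.k₁, c.r41.K_ge]

theorem g_nonneg (hx : x ∈ C.B (5 / 2) a) (hξ : Fr (s / 8) ξ) : 0 ≤ P.g S s a x ξ :=
  c.gen.G_nonneg _ (c.dens0 hx hξ)

/-- **H** -/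
theorem gb_sub (hx : x ∈ C.B (5 / 2) a) (hξ : Fr (s / 8) ξ) (h1 : 1 ≤ N) (h2 : N ≤ P.Z)
    (hτ : ‖τ‖ ^ 2 ≤ exp (-9)) :
    |S.G (P.atw C N s γ a x ξ τ) - P.g S s a x ξ / N| ≤ P.Z ^ 2 * P.cb S s := by
  have hb := c.std₀ (γ := γ) hx hξ
  have h := c.r58.h _ τ (N * P.sw s) (P.t * s) hb.ok rfl (c.okw hx hξ h1 h2 hτ)
    ⟨half_le_self c.Λ_pos.le, le_rfl⟩
  have h3 := c.top hb.ok rfl
  change |S.G (P.atw C N s γ a x ξ τ) - S.G (P.at0 C s γ a x ξ) * (P.sw s / (N * P.sw s))| ≤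
    K₂ * P.Z * (S.G (P.at0 C s γ a x ξ) / P.sw s + 1) at h
  change S.G (P.at0 C s γ a x ξ) ≤ _ at h3
  rw [c.g_eq hx hξ] at h h3
  rw [div_mul_cancel_right₀ c.sw_pos.ne', ← div_eq_mul_inv] at h
  have h4 : P.g S s a x ξ / P.sw s + 1 ≤ 3 * K * P.cb S s := by
    have := div_le_div_of_nonneg_right h3 c.sw_pos.le
    rw [mul_div_assoc] at this
    change _ ≤ 2 * K * P.cb S s at this
    nlinarith [c.K1, c.cb1]
  have h5 := div_nonneg (c.g_nonneg hx hξ) c.sw_pos.le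
  have h6 := c.K1
  have h7 := P.Z_pos
  have h8 := c.cb_pos
  calc _ ≤ _ := h
    _ ≤ K * P.Z * (3 * K * P.cb S s) := by gcongr; exact c.k₂
    _ = 3 * K ^ 2 * (P.Z * P.cb S s) := by ring
    _ ≤ P.Z * (P.Z * P.cb S s) := by gcongr; linarith [c.K2_le, sq_nonneg K]
    _ = _ := by ring

theorem gb_le (hx : x ∈ C.B (5 / 2) a) (hξ : Fr (s / 8) ξ) (h1 : 1 ≤ N) (h2 : N ≤ P.Z)
    (hτ : ‖τ‖ ^ 2 ≤ exp (-9)) : S.G (P.atw C N s γ a x ξ τ) ≤ 3 * K * (P.GG S s / N) := by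
  have h3 := (abs_le.1 (c.gb_sub (γ := γ) hx hξ h1 h2 hτ)).2
  have h4 := c.top (c.std₀ (γ := 1) hx hξ).ok rfl
  have n0 : (0 : ℝ) < N := by exact_mod_cast h1
  have h5 := div_le_div_of_nonneg_right h4 n0.le
  have h6 : P.Z ^ 2 * P.cb S s ≤ P.GG S s / N := by
    rw [le_div_iff₀ n0, c.G_eq, mul_right_comm, mul_comm]
    refine mul_le_mul_of_nonneg_left (le_trans ?_ ((P.pow_le (by norm_num : 3 ≤ 14)).trans c.sw_ge))
      c.cb_pos.le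
    rw [pow_succ _ 2]
    exact mul_le_mul_of_nonneg_left (by exact_mod_cast h2) (sq_nonneg _)
  rw [mul_div_assoc] at h5
  change P.g S s a x ξ / N ≤ _ at h5
  nlinarith [c.K1, div_pos c.G_pos n0]

end Cx

end Vale.Agent.P284Y.S12
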