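import Vale.Agent.P284Y.Y.R87
import Vale.Agent.P284Y.Y.Bk.Lv
import Vale.Agent.P284Y.Y.Bk.Cmp

/-!
# P284Y, block Y, one stage: the rows give the bookkeeping structures
-/

set_option linter.all false

open scoped ContDiff Topology ComplexOrder ENNReal Matrix
open Filter Set Function Metric MeasureTheory

noncomputable section

namespace Vale.Agent.P284Y.S12

open Vale.Agent.P272.K Vale.Agent.P284Z Vale.Agent.P284Z.J Real Vale.Agent.P284Y.Y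

variable {n : ℕ} {Γ E : Type} [Group Γ] [TopologicalSpace E] [MulAction Γ E] {C : Cov n Γ E}

/-- points in charts -/
structure Pt (C : Cov n Γ E) where
  γ : Γ
  a : C.I
  x : Cm n
  mem : x ∈ C.B (5 / 2) a

/-- the constraints on a level -/
structure LO (K : ℝ) (Z N : ℕ) (κ ρ : ℝ) : Prop where
  N_pos : 1 ≤ N
  N_le : 3 * (N : ℝ) ^ 2 ≤ Z
  κN : 24 * K ≤ κ * N
  κρ : 4 * κ ≤ ρ ^ 2
  ρ_pos : 0 ≤ ρ
  ρ_le : ρ ≤ 1 / 2

theorem norm_om (N : ℕ) : ‖om N‖ = 1 := by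
  rw [om, ← Complex.ofReal_natCast, ← Complex.ofReal_div, Complex.norm_exp_ofReal_mul_I]

variable [MeasurableSpace E] {μ : Measure (E × ℂ)}

/-- the correction -/
def corr (P : Par) (S : MAS (P.Q C) μ) (s K₄ : ℝ) (N : ℕ) (M : ℝ) : ℝ :=
  K₄ * (P.U S s / (N * P.sw s)) * exp (-M)

/-- the effective saving -/
def sv (P : Par) (S : MAS (P.Q C) μ) (s K₄ : ℝ) (N : ℕ) (p p' : Pt C) (M : ℝ) : ℝ :=
  P.g S s p.a p.x 1 + P.g S s p'.a p'.x 1 / N -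
    (P.J S N s p.a p.x (p.γ⁻¹ * p'.γ) p'.a p'.x 1 M + corr P S s K₄ N M)

/-- convexity in `M` -/
def Cvx (P : Par) (S : MAS (P.Q C) μ) (s K₄ : ℝ) (N : ℕ) : Prop :=
  ∀ a, ∀ x ∈ C.B (5 / 2) a, ∀ γ b, ∀ y ∈ C.B (5 / 2) b,
    ConvexOn ℝ (Ioi 9) fun M => P.J S N s a x γ b y 1 M + corr P S s K₄ N M

variable {P : Par} {S : MAS (P.Q C) μ} {s K₁ K₂ K₃ K K₄ : ℝ} {γ γ' : Γ} {a b : C.I} {x y : Cm n}
  {ξ : Mx n} {N : ℕ} {τ : ℂ} {M κ ρ : ℝ}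

namespace LO
variable {Z : ℕ} (h : LO K Z N κ ρ)
include h

theorem n1 : (1 : ℝ) ≤ N := by exact_mod_cast h.N_pos
theorem n0 : (0 : ℝ) < N := one_pos.trans_le h.n1
theorem nZ : (N : ℝ) ≤ Z := by nlinarith [h.n1, h.N_le]
theorem nZ' : N ≤ Z := by exact_mod_cast h.nZ
theorem div_N : 3 * (K / N) ≤ κ / 8 := by
  rw [← mul_div_assoc, div_le_iff₀ h.n0]
  linarith [h.κN]
theorem div_Z (hK : 0 ≤ K) : 3 * (K / Z) ≤ κ / 8 :=
  le_trans (mul_le_mul_of_nonneg_left (div_le_div_of_nonneg_left hK h.n0 h.nZ) (by norm_num))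
    h.div_N

end LO

namespace Cx
variable (c : Cx P S s K₁ K₂ K₃ K)

theorem M_ge (hM : M ∈ Icc P.M₀ (P.M₁ s)) : (P.Z : ℝ) ^ 4 ≤ M := hM.1

theorem M_ge' (hM : M ∈ Icc P.M₀ (P.M₁ s)) : 100 ≤ M :=
  P.Z_ge'.trans ((P.Z_le_pow (by norm_num)).trans hM.1)

include c

theorem mem5 (hM : M ∈ Icc P.M₀ (P.M₁ s)) : M ∈ Icc P.M₀ (P.sw s / 5) := ⟨hM.1, hM.2.trans c.M1_le⟩

theorem Λ_mem : P.t * s ∈ Icc (P.t * s / 2) (P.t * s) := ⟨half_le_self c.Λ_pos.le, le_rfl⟩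

theorem ex_nu (M : ℝ) (p : Pt C) : ∃ ν, M ∈ Icc P.M₀ (P.M₁ s) →
    Bg S (P.at0 C s p.γ p.a p.x 1) M (8 * P.B) (exp (-(P.B / 2))) ν := by
  by_cases hM : M ∈ Icc P.M₀ (P.M₁ s)
  · exact (c.r61.ex _ (P.t * s) M (c.std₀ p.mem c.fr1) ⟨c.Λ_pos.le, le_rfl⟩ (c.mem5 hM)).imp
      fun _ h _ => h
  · exact ⟨0, fun h => absurd h hM⟩

/-- the background -/
def nu (M : ℝ) (p : Pt C) : E × ℂ → ℝ := (c.ex_nu M p).choose

theorem bg (hM : M ∈ Icc P.M₀ (P.M₁ s)) (p : Pt C) :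
    Bg S (P.at0 C s p.γ p.a p.x 1) M (8 * P.B) (exp (-(P.B / 2))) (c.nu M p) :=
  (c.ex_nu M p).choose_spec hM

theorem κ1 : exp (-(P.B / 2)) ≤ 1 := exp_le_one_iff.2 (by linarith [P.B_pos])

theorem δ8 : 8 * P.B ≤ P.Z * P.B := mul_le_mul_of_nonneg_right (by linarith [P.Z_ge']) P.B_pos.le

/-- the stage -/
def st : Bk.Stg (E × ℂ → ℝ) (Pt C) where
  P := (P.Q C).Dens
  G := S.G
  sm := Bk.sm_of_gen c.gen
  x0 p := P.at0 C s p.γ p.a p.x 1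
  nu := c.nu
  good p := P.Good S s p.a p.x
  cb := P.cb S s
  M0 := P.M₀
  M1 := P.M₁ s
  cb_pos := c.cb_pos
  M0_pos := pow_pos P.Z_pos 4
  M0_le := c.M0_lt.le
  pnu _ hM p := (c.bg hM p).dens

theorem c_eq (hx : x ∈ C.B (5 / 2) a) :
    (b0 P s γ a x 1).c P S (P.t * s) = P.g S s a x 1 / P.sw s :=
  congrArg (· / P.sw s) (c.g_eq hx c.fr1)

theorem c_le (hx : x ∈ C.B (5 / 2) a) : P.g S s a x 1 / P.sw s ≤ P.cb S s :=
  div_le_div_of_nonneg_right (c.g_le hx) c.sw_pos.le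

theorem c_nonneg (hx : x ∈ C.B (5 / 2) a) : 0 ≤ P.g S s a x 1 / P.sw s :=
  div_nonneg (c.g_nonneg hx c.fr1) c.sw_pos.le

theorem g_ge (h : P.Good S s a x) : (1 - ((P.Z : ℝ) ^ 2)⁻¹) * P.GG S s ≤ P.g S s a x 1 := by
  have h1 := (le_div_iff₀ c.G_pos).1 h.2
  rw [Par.L, div_eq_mul_inv] at h1
  refine le_of_mul_le_mul_right ?_ c.s_pos
  linarith

theorem c_ge (h : P.Good S s a x) : (1 - K / P.Z) * P.cb S s ≤ P.g S s a x 1 / P.sw s := by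
  refine le_trans ?_ (div_le_div_of_nonneg_right (c.g_ge h) c.sw_pos.le)
  rw [mul_div_assoc]
  refine mul_le_mul_of_nonneg_right (sub_le_sub_left ?_ _) c.cb_pos.le
  exact (inv_anti₀ P.Z_pos (P.Z_le_pow (by norm_num))).trans
    (by rw [← one_div]; exact div_le_div_of_nonneg_right c.K1 P.Z_pos.le)

theorem e2 (hM : M ∈ Icc P.M₀ (P.M₁ s)) (p : Pt C) :
    |S.G (c.nu M p) - P.g S s p.a p.x 1 / P.sw s * M| ≤ 2 * (K / P.Z) * (P.cb S s * M) := by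
  have h := c.r61.e2 _ _ M _ _ (c.std₀ (γ := p.γ) p.mem c.fr1) c.Λ_mem (c.mem5 hM)
    ((c.bg hM p).mono le_rfl c.κ1) c.δ8
  rw [c.c_eq p.mem] at h
  have h1 := c.c_le p.mem
  have h2 := c.c_nonneg p.mem
  have h3 := M_ge' hM
  have h4 := c.K1
  have h5 := P.Z_pos
  calc _ ≤ _ := h
    _ ≤ K / P.Z * ((P.cb S s + P.cb S s) * M) := by gcongr; exacts [c.k₃, c.cb1]
    _ = _ := by ring

theorem tau9 (hM : 9 ≤ M) (i : ℕ) :
    ‖((exp (-(M / 2)) : ℝ) : ℂ) * om N ^ i‖ ^ 2 = exp (-M) ∧ exp (-M) ≤ exp (-9) := by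
  rw [norm_mul, norm_pow (om N), norm_om, one_pow, mul_one]
  exact ⟨norm_tau M, exp_le_exp.2 (neg_le_neg hM)⟩

theorem tau_le (N : ℕ) (hM : 9 ≤ M) (i : ℕ) :
    ‖((exp (-(M / 2)) : ℝ) : ℂ) * om N ^ i‖ ^ 2 ≤ exp (-9) :=
  (c.tau9 hM i).1.trans_le (c.tau9 (N := N) hM i).2

theorem gb_eq (hx : x ∈ C.B (5 / 2) a) (h1 : 1 ≤ N) (h2 : N ≤ P.Z) (τ : ℂ) :
    S.G (P.atw C N s γ a x 1 τ) = S.G (P.atw C N s γ a x 1 0) :=
  c.r58.tr ((b0 P s γ a x 1).mv 0 (N * P.sw s)) τ (P.t * s)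
    (c.okw (τ := 0) hx c.fr1 h1 h2 (by simp [exp_nonneg]))

theorem corr_bd (h1 : 1 ≤ N) (k0 : 0 ≤ K₄) (kZ : K₄ ≤ P.Z) (hM : 0 ≤ M) :
    0 ≤ corr P S s K₄ N M ∧ corr P S s K₄ N M ≤ 2 * P.Z * (P.cb S s / N) := by
  have n0 : (0 : ℝ) < N := by exact_mod_cast h1
  have u : P.U S s ≤ 2 * P.GG S s := by unfold Par.U; linarith [c.G1]
  have u0 : 0 ≤ P.U S s := by unfold Par.U; linarith [c.G1]
  have := c.sw_pos
  have := c.G_pos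
  refine ⟨by unfold corr; positivity, ?_⟩
  calc _ ≤ P.Z * (2 * P.GG S s / (N * P.sw s)) * 1 := by
        unfold corr
        gcongr
        exact exp_le_one_iff.2 (by linarith)
    _ = _ := by unfold Par.cb; field_simp

theorem err_bd (h : LO K P.Z N κ ρ) :
    P.Z ^ 2 * P.cb S s + 2 * P.Z * (P.cb S s / N) ≤ κ / 8 * ((N : ℝ)⁻¹ * (P.cb S s * P.M₀)) := by
  have h1 := h.div_N
  have h2 := h.n0
  have h3 := c.cb_pos
  have h4 := P.Z_ge'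
  have h5 : P.cb S s / N ≤ P.cb S s := div_le_self h3.le h.n1
  have h6 : (P.Z : ℝ) ^ 3 ≤ K / N * ((N : ℝ)⁻¹ * P.M₀) := by
    rw [show K / N * ((N : ℝ)⁻¹ * P.M₀) = K * (P.Z * P.Z ^ 3) / N ^ 2 by unfold Par.M₀; ring,
      le_div_iff₀ (by positivity)]
    have h7 : (N : ℝ) ^ 2 ≤ K * P.Z := by nlinarith [h.N_le, c.K1]
    calc _ ≤ P.Z ^ 3 * (K * P.Z) := by gcongr
      _ = _ := by ring
  have h8 := mul_le_mul_of_nonneg_right h1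
    (show 0 ≤ (N : ℝ)⁻¹ * (P.cb S s * P.M₀) by unfold Par.M₀; positivity)
  have h9 := mul_le_mul_of_nonneg_left h6 h3.le
  have h10 := mul_le_mul_of_nonneg_right (P.pow_le (show 2 ≤ 3 by norm_num)) h3.le
  have h11 := mul_le_mul_of_nonneg_right (P.Z_le_pow (show 1 ≤ 3 by norm_num)) h3.le
  have h12 := mul_le_mul_of_nonneg_left h5 P.Z_pos.le
  linarith

theorem II_eq (h1 : 1 ≤ N) (h2 : N ≤ P.Z) (hM : 9 ≤ M) (p p' : Pt C) :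
    Bk.II S.G (P.atw C N s p'.γ p'.a p'.x 1 (((exp (-(M / 2)) : ℝ) : ℂ) * om N ^ 0))
      (P.at0 C s p.γ p.a p.x 1) =
    P.J S N s p.a p.x (p.γ⁻¹ * p'.γ) p'.a p'.x 1 M - P.g S s p.a p.x 1 := by
  rw [Bk.II, c.J_eq p.mem p'.mem c.fr1 h1 h2 hM (c.tau9 hM 0).1, c.g_eq p.mem c.fr1]

theorem sv_sub (h : LO K P.Z N κ ρ) (k0 : 0 ≤ K₄) (kZ : K₄ ≤ P.Z) (hM : 9 ≤ M) (p p' : Pt C) :
    |sv P S s K₄ N p p' M - (S.G (P.atw C N s p'.γ p'.a p'.x 1 0) -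
      Bk.II S.G (P.atw C N s p'.γ p'.a p'.x 1 (((exp (-(M / 2)) : ℝ) : ℂ) * om N ^ 0))
        (P.at0 C s p.γ p.a p.x 1))| ≤ κ / 8 * ((N : ℝ)⁻¹ * (P.cb S s * P.M₀)) := by
  obtain ⟨h1, h2⟩ := abs_le.1 (c.gb_sub (γ := p'.γ) (τ := 0) p'.mem c.fr1 h.N_pos h.nZ'
    (by simp [exp_nonneg]))
  obtain ⟨h3, h4⟩ := c.corr_bd h.N_pos k0 kZ (by linarith : 0 ≤ M)
  rw [c.II_eq h.N_pos h.nZ' hM, sv, abs_le]
  constructor <;> linarith [c.err_bd h]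

omit c in
theorem n0 (n1 : 1 ≤ N) : (0 : ℝ) < N := by exact_mod_cast n1

theorem div_Z {ε : ℝ} (n1 : 1 ≤ N) (nZ : N ≤ P.Z) (hε : 3 * (K / N) ≤ ε) : 3 * (K / P.Z) ≤ ε :=
  le_trans (mul_le_mul_of_nonneg_left (div_le_div_of_nonneg_left (zero_le_one.trans c.K1) (n0 n1)
    (by exact_mod_cast nZ)) (by norm_num)) hε

/-- the rotation -/
def RR (Γ E : Type) [Group Γ] [MulAction Γ E] (N : ℕ) : (E × ℂ → ℝ) →+ (E × ℂ → ℝ) :=
  ⟨⟨fun ν => ν ∘ isoY (1 : Γ) (om N)⁻¹ 0, rfl⟩, fun _ _ => rfl⟩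

theorem rot (n1 : 1 ≤ N) (nZ : N ≤ P.Z) (hM : M ∈ Icc P.M₀ (P.M₁ s)) (p : Pt C) :
    Bk.Rot (P.Q C).Dens S.G (RR Γ E N)
      fun i => P.atw C N s p.γ p.a p.x 1 (((exp (-(M / 2)) : ℝ) : ℂ) * om N ^ i) := by
  have h9 : 9 ≤ M := by linarith [M_ge' hM]
  have hu : ‖(om N)⁻¹‖ = 1 := by rw [norm_inv, norm_om, inv_one]
  refine ⟨fun ha => (c.r41.act 1 _ 0 _ hu ha).2.2, fun i => c.densw p.mem c.fr1 n1 nZ
    (c.tau_le N h9 i), fun i => ?_⟩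
  have h1 := c.W_sym (c.okw (γ := p.γ) p.mem c.fr1 n1 nZ (c.tau_le N h9 (i + 1))) 1 hu
    (P.t * s)
  have h2 : (om N)⁻¹ * (((exp (-(M / 2)) : ℝ) : ℂ) * om N ^ (i + 1)) =
      ((exp (-(M / 2)) : ℝ) : ℂ) * om N ^ i := by
    have : om N ≠ 0 := norm_ne_zero_iff.1 (by simp [norm_om])
    rw [pow_succ', mul_left_comm, inv_mul_cancel_left₀ this]
  simp only [b0, Pb.mv, one_mul, h2] at h1
  exact h1

theorem rnu (hM : M ∈ Icc P.M₀ (P.M₁ s)) (p : Pt C) : RR Γ E N (c.nu M p) = c.nu M p :=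
  funext fun y => by
    have := (c.bg hM p).inv (om N)⁻¹ (by rw [norm_inv, norm_om, inv_one]) y
    change c.nu M p ((1 : Γ) • y.1, _ + 0) = _
    rwa [one_smul, add_zero]

theorem e1l {ε : ℝ} (n1 : 1 ≤ N) (nZ : N ≤ P.Z) (hε : 3 * (K / N) ≤ ε)
    (hM : M ∈ Icc P.M₀ (P.M₁ s)) (p p' : Pt C) :
    Bk.II S.G (P.atw C N s p'.γ p'.a p'.x 1 (((exp (-(M / 2)) : ℝ) : ℂ) * om N ^ 0)) (c.nu M p) ≤
      Bk.II S.G (P.atw C N s p'.γ p'.a p'.x 1 (((exp (-(M / 2)) : ℝ) : ℂ) * om N ^ 0))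
        (P.at0 C s p.γ p.a p.x 1) + ε * ((N : ℝ)⁻¹ * (P.cb S s * M)) := by
  have h9 : 9 ≤ M := by linarith [M_ge' hM]
  refine (c.r61.e1l _ _ _ _ M _ _ _ _ N (c.std₀ (γ := p.γ) p.mem c.fr1) le_rfl (c.mem5 hM)
    (c.bg hM p) c.δ8 (c.std₀ (γ := p'.γ) p'.mem c.fr1) c.Λ_mem (c.mem5 hM).2 n1 nZ
    (c.tau9 h9 0).1).trans (add_le_add_right ?_ _)
  rw [c.c_eq p'.mem]
  have h1 := c.c_le p'.mem
  have h2 := c.c_nonneg p'.mem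
  have h3 := (n0 n1)
  have h4 := c.K1
  have h5 := c.cb_pos
  calc _ ≤ K / N * ((P.cb S s + 2 * P.cb S s) * M / N) := by
        gcongr
        exacts [c.k₃, by linarith [c.cb1]]
    _ = 3 * (K / N) * ((N : ℝ)⁻¹ * (P.cb S s * M)) := by ring
    _ ≤ _ := mul_le_mul_of_nonneg_right hε (by positivity)

theorem e2u {ε : ℝ} (n1 : 1 ≤ N) (nZ : N ≤ P.Z) (hε : 3 * (K / N) ≤ ε)
    (hM : M ∈ Icc P.M₀ (P.M₁ s)) (p : Pt C) : S.G (c.nu M p) ≤ (1 + ε) * (P.cb S s * M) := by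
  have h1 := (abs_le.1 (c.e2 hM p)).2
  have h2 := mul_le_mul_of_nonneg_right (c.c_le p.mem) (by linarith [M_ge' hM] : 0 ≤ M)
  have h3 := mul_le_mul_of_nonneg_right (c.div_Z n1 nZ hε)
    (Bk.Stg.U_pos (S := c.st) hM).le
  have h4 := mul_nonneg (div_nonneg (zero_le_one.trans c.K1) P.Z_pos.le)
    (Bk.Stg.U_pos (S := c.st) hM).le
  change S.G (c.nu M p) ≤ (1 + ε) * (P.cb S s * M)
  change _ * (P.cb S s * M) ≤ _ * (P.cb S s * M) at h3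
  change 0 ≤ _ * (P.cb S s * M) at h4
  linarith

theorem e4 {ε : ℝ} (n1 : 1 ≤ N) (nZ : N ≤ P.Z) (hε : 3 * (K / N) ≤ ε)
    (hM : M ∈ Icc P.M₀ (P.M₁ s)) (p : Pt C) (k : ℕ) (h1 : N ≤ k) (h2 : k ≤ 2 * N) :
    k * S.G (P.atw C N s p.γ p.a p.x 1 0) - (k * (N : ℝ)⁻¹) ^ 2 * (1 + ε) * (P.cb S s * M) ≤
      S.G (Bk.arc
        (fun i => P.atw C N s p.γ p.a p.x 1 (((exp (-(M / 2)) : ℝ) : ℂ) * om N ^ i)) k) := by
  have h9 : 9 ≤ M := by linarith [M_ge' hM]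
  refine le_trans ?_ (c.r58.e4 (b0 P s p.γ p.a p.x 1) ((exp (-(M / 2)) : ℝ) : ℂ) N k M (P.t * s)
    (c.std₀ (γ := p.γ) p.mem c.fr1).ok rfl n1 nZ
    h1 h2 hM (norm_tau M) c.Λ_mem)
  have h0 := c.gb_eq (γ := p.γ) p.mem n1 nZ ((exp (-(M / 2)) : ℝ) : ℂ)
  refine sub_le_sub (le_of_eq (congrArg ((k : ℝ) * ·) h0.symm)) ?_
  have h3 := c.c_eq (γ := p.γ) p.mem
  change S.G _ / P.sw s = _ at h3
  change (k / N) ^ 2 * (1 + K₂ / P.Z) * ((S.G _ / P.sw s + 1) * M) ≤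
    (k * (N : ℝ)⁻¹) ^ 2 * (1 + ε) * (P.cb S s * M)
  rw [h3, ← div_eq_mul_inv, mul_assoc, mul_assoc, ← mul_assoc (1 + K₂ / P.Z),
    ← mul_assoc (1 + ε)]
  refine mul_le_mul_of_nonneg_left (mul_le_mul_of_nonneg_right ?_ (by linarith)) (sq_nonneg _)
  have h4 := c.c_le p.mem
  have h5 := c.c_nonneg p.mem
  have h6 := P.Z_pos
  have h7 := c.K1
  have h8 : 1 ≤ K / P.Z * P.cb S s := by
    rw [div_mul_eq_mul_div, le_div_iff₀ h6]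
    nlinarith [c.B_le_cb, P.Zβ_le_B, P.one_le_β]
  have h10 : K / P.Z ≤ 1 := (div_le_one h6).2 (by linarith [c.K1_le])
  have h11 := mul_le_mul_of_nonneg_right (c.div_Z n1 nZ hε) c.cb_pos.le
  calc _ ≤ (1 + K / P.Z) * (P.cb S s + 1) := by gcongr; exact c.k₂
    _ ≤ _ := by nlinarith

/-- the level -/
def lv (h : LO K P.Z N κ ρ) (k0 : 0 ≤ K₄) (kZ : K₄ ≤ P.Z) (cv : Cvx P S s K₄ N) : Bk.Lv c.st where
  N := N
  th := (N : ℝ)⁻¹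
  κ := κ
  ε := κ / 8
  ρ := ρ
  R := RR Γ E N
  pr M p i := P.atw C N s p.γ p.a p.x 1 (((exp (-(M / 2)) : ℝ) : ℂ) * om N ^ i)
  gb p := S.G (P.atw C N s p.γ p.a p.x 1 0)
  K := sv P S s K₄ N
  m0 := 10
  m0_nonneg := by norm_num
  m0_le := by
    have h1 := h.div_Z (zero_le_one.trans c.K1)
    have h2 : K / P.Z * P.M₀ = K * P.Z ^ 3 := by
      have := P.Z_pos
      unfold Par.M₀
      field_simp
    have h3 := mul_le_mul_of_nonneg_right h1 (pow_pos P.Z_pos 4).le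
    change 2 * 10 ≤ κ / 8 * P.M₀
    change _ * P.M₀ ≤ _ * P.M₀ at h3
    nlinarith [c.K1, P.Z_le_pow (show 1 ≤ 3 by norm_num), P.Z_ge']
  hN := inv_mul_cancel₀ h.n0.ne'
  th_pos := inv_pos.2 h.n0
  ε_nonneg := le_trans (by have := c.K1; have := h.n0; positivity) h.div_N
  ε_le := by linarith
  κ_le := h.κρ
  th_le := by
    have h1 := h.div_N
    have h2 : (N : ℝ)⁻¹ ≤ K / N := by
      rw [← one_div]
      exact div_le_div_of_nonneg_right c.K1 h.n0.le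
    nlinarith [h.κρ, h.ρ_le, h.ρ_pos, inv_pos.2 h.n0]
  ρ_le := h.ρ_le
  rot M hM p := c.rot h.N_pos h.nZ' hM p
  rnu M hM p := c.rnu hM p
  e1u M hM p p' := by
    have h9 : 9 ≤ M := by linarith [M_ge' hM]
    refine (c.r61.e1u _ _ M _ _ _ _ (c.std₀ (γ := p.γ) p.mem c.fr1).ok (c.bg hM p)
      (c.densw p'.mem c.fr1 h.N_pos h.nZ' (c.tau_le N h9 0))).trans
        (add_le_add_right (c.κ1.trans ?_) _)
    have h1 := c.err_bd h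
    have h2 := h.n0
    have h3 := c.cb_pos
    have h4 : κ / 8 * ((N : ℝ)⁻¹ * (P.cb S s * P.M₀)) ≤ κ / 8 * ((N : ℝ)⁻¹ * (P.cb S s * M)) := by
      have : 0 ≤ κ / 8 := le_trans (by have := c.K1; positivity) h.div_N
      gcongr
      exact hM.1
    have h5 : 0 ≤ 2 * P.Z * (P.cb S s / N) := by positivity
    change 1 ≤ κ / 8 * ((N : ℝ)⁻¹ * (P.cb S s * M))
    nlinarith [c.cb1, one_le_pow₀ (n := 2) P.one_le_Z]
  e1l M hM p p' := c.e1l h.N_pos h.nZ' h.div_N hM p p'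
  e2u M hM p := c.e2u h.N_pos h.nZ' h.div_N hM p
  e2l M hM p g := by
    have h1 := (abs_le.1 (c.e2 hM p)).1
    have h2 := mul_le_mul_of_nonneg_right (c.c_ge g) (by linarith [M_ge' hM] : 0 ≤ M)
    have h3 := mul_le_mul_of_nonneg_right (h.div_Z (zero_le_one.trans c.K1))
      (Bk.Stg.U_pos (S := c.st) hM).le
    change (1 - κ / 8) * (P.cb S s * M) ≤ S.G (c.nu M p)
    change _ * (P.cb S s * M) ≤ _ * (P.cb S s * M) at h3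
    linarith
  e3 M hM p g := by
    have h9 : 9 ≤ M := by linarith [M_ge' hM]
    refine (c.r61.e3 _ _ M _ _ _ _ N (c.std₀ (γ := p.γ) p.mem c.fr1) c.Λ_mem hM
      (c.bg hM p) c.δ8 h.N_pos h.nZ' (c.tau9 h9 0).1).trans ?_
    rw [c.c_eq p.mem]
    have h0 := c.gb_eq (γ := p.γ) p.mem h.N_pos h.nZ' (((exp (-(M / 2)) : ℝ) : ℂ) * om N ^ 0)
    have h1 := c.c_le p.mem
    have h2 := c.c_nonneg p.mem
    have h3 := h.n0
    have h4 := c.K1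
    have h5 := c.cb_pos
    have h6 : K₃ / N * ((P.g S s p.a p.x 1 / P.sw s + 1) * M / N) ≤
        K / N * ((P.cb S s + P.cb S s) * M / N) := by
      gcongr
      exacts [c.k₃, c.cb1]
    have h7 := mul_le_mul_of_nonneg_right (c.c_ge g) (show 0 ≤ M / N by positivity)
    have h8 := mul_le_mul_of_nonneg_right h.div_N
      (show 0 ≤ (N : ℝ)⁻¹ * (P.cb S s * M) by positivity)
    have h10 := mul_le_mul_of_nonneg_right (div_le_div_of_nonneg_left (by linarith : 0 ≤ K) h3 h.nZ)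
      (show 0 ≤ (N : ℝ)⁻¹ * (P.cb S s * M) by positivity)
    have h11 : 0 ≤ K / N * ((N : ℝ)⁻¹ * (P.cb S s * M)) := by positivity
    change S.G (P.atw C N s p.γ p.a p.x 1 (((exp (-(M / 2)) : ℝ) : ℂ) * om N ^ 0)) - _ + _ ≤
      S.G (P.atw C N s p.γ p.a p.x 1 0) - 2 * (1 - κ / 8) * ((N : ℝ)⁻¹ * (P.cb S s * M))
    simp only [div_eq_mul_inv] at *
    linarith
  e4 M hM p := c.e4 h.N_pos h.nZ' h.div_N hM p
  kc p p' := ((concaveOn_const _ (convex_Ioi 9)).sub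
    (cv p.a p.x p.mem _ p'.a p'.x p'.mem)).subset
      (fun M hM => lt_of_lt_of_le (by norm_num : (9 : ℝ) < 10) hM.1) (convex_Icc _ _)
  k0 p p' := by
    have h1 := (abs_le.1 (c.sv_sub h k0 kZ (by norm_num : (9 : ℝ) ≤ 10) p p')).1
    have h2 := c.st.sm.II_le (c.dens0 (γ := p.γ) p.mem c.fr1) (c.densw (γ := p'.γ) p'.mem c.fr1
      h.N_pos h.nZ' (c.tau_le N (by norm_num : (9 : ℝ) ≤ 10) 0))
    change Bk.II S.G _ _ ≤ S.G _ at h2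
    rw [c.gb_eq p'.mem h.N_pos h.nZ'] at h2
    change -(κ / 8 * ((N : ℝ)⁻¹ * (P.cb S s * P.M₀))) ≤ sv P S s K₄ N p p' 10
    linarith
  ks M hM p p' := c.sv_sub h k0 kZ (by linarith [M_ge' hM]) p p'

/-- **LOW** -/
theorem low : P.Low S s := by
  intro N a x γ b y n1 nZ hx g M hM
  have n0 := n0 n1
  have k1 := c.K1
  have hε : 3 * (K / N) ≤ 3 * K := by
    gcongr
    exact div_le_self (by linarith) (by exact_mod_cast n1)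
  have h0 := c.e4 n1 nZ hε hM ⟨γ, b, y, g.1⟩ N le_rfl (by omega)
  rw [mul_inv_cancel₀ n0.ne', one_pow, one_mul] at h0
  have h1 := c.st.sm.s2_up (c.rot n1 nZ hM ⟨γ, b, y, g.1⟩) (c.bg hM ⟨1, a, x, hx⟩).dens
    (c.rnu hM _) (inv_mul_cancel₀ n0.ne') (inv_pos.2 n0) (c.e1l n1 nZ hε hM _ _)
    (c.e2u n1 nZ hε hM _) h0
  have h2 := (abs_le.1 (c.gb_sub (γ := γ) (τ := 0) g.1 c.fr1 n1 nZ (by simp [exp_nonneg]))).1
  have h3 := div_le_div_of_nonneg_right (c.g_ge g) n0.le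
  change S.G (P.atw C N s γ b y 1 0) - S.I (P.atw C N s γ b y 1 (_ * om N ^ 0))
    (P.at0 C s 1 a x 1) ≤ (2 + 3 * (3 * K)) * ((N : ℝ)⁻¹ * (P.cb S s * M)) at h1
  rw [pow_zero, mul_one] at h1
  have z0 := P.Z_pos
  have c0 := c.cb_pos
  have m0 := M_ge' hM
  have h5 : (2 + 3 * (3 * K)) * ((N : ℝ)⁻¹ * (P.cb S s * M)) ≤
      (P.Z - 2) * ((N : ℝ)⁻¹ * (P.cb S s * P.M₁ s)) := by
    have := c.K1_le
    gcongr
    exacts [by linarith, by linarith, hM.2]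
  have h6 : P.Z ^ 2 * P.cb S s ≤ (N : ℝ)⁻¹ * (P.cb S s * P.M₁ s) := by
    rw [le_inv_mul_iff₀ n0, ← mul_assoc, mul_comm]
    refine mul_le_mul_of_nonneg_left (le_trans ?_ ((P.pow_le (show 3 ≤ 4 by norm_num)).trans
      c.M0_lt.le)) c0.le
    rw [pow_succ' _ 2]
    exact mul_le_mul_of_nonneg_right (by exact_mod_cast nZ) (sq_nonneg _)
  have e1 : (1 - ((P.Z : ℝ) ^ 2)⁻¹) * P.GG S s / N =
      (P.Z ^ 2 - 1) * ((N : ℝ)⁻¹ * (P.cb S s * P.M₁ s)) := by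
    rw [c.G_eq, ← c.M1_eq]
    field_simp
  have e2 : (1 - (P.Z : ℝ)⁻¹) * (P.GG S s * P.sw s / (N * P.sw s)) =
      (P.Z ^ 2 - P.Z) * ((N : ℝ)⁻¹ * (P.cb S s * P.M₁ s)) := by
    rw [mul_div_mul_right _ _ c.sw_pos.ne', c.G_eq, ← c.M1_eq]
    field_simp
  rw [e1] at h3
  rw [e2]
  linarith

end Cx

end Vale.Agent.P284Y.S12
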