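import Vale.Agent.P284Y.Y.S12.B

/-!
# P284Y, block Y, one stage: upper bound, chain
-/

set_option linter.all false

open scoped ContDiff Topology ComplexOrder ENNReal Matrix
open Filter Set Function Metric MeasureTheory

noncomputable section

namespace Vale.Agent.P284Y.S12

open Vale.Agent.P272.K Vale.Agent.P284Z Vale.Agent.P284Z.J Real Vale.Agent.P284Y.Y

variable {n : ℕ} {Γ E : Type} [Group Γ] [TopologicalSpace E] [MulAction Γ E] {C : Cov n Γ E}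
  [MeasurableSpace E] {μ : Measure (E × ℂ)}

/-- `v - N f - f` -/
def uu (P : Par) (S : MAS (P.Q C) μ) (N : ℕ) (κ s : ℝ) (a : C.I) (x : Cm n) (γ : Γ) (b : C.I)
    (y : Cm n) : ℝ := P.vv S N κ s a x γ b y 1 - N * P.f S s a x 1 - P.f S s b y 1

/-- the symmetric function -/
def ut (P : Par) (S : MAS (P.Q C) μ) (N : ℕ) (κ s : ℝ) (γ : Γ) (a : C.I) (x : Cm n) (γ' : Γ)
    (b : C.I) (y : Cm n) : ℝ :=
  (uu P S N κ s a x (γ⁻¹ * γ') b y + uu P S N κ s b y (γ'⁻¹ * γ) a x) / (N + 1)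

variable {P : Par} {S : MAS (P.Q C) μ} {s K₁ K₂ K₃ K : ℝ} {γ γ' : Γ} {a b : C.I} {x y : Cm n}
  {ξ : Mx n} {N N' : ℕ} {M κ ρ κ' ρ' A : ℝ}

namespace Cx
variable (c : Cx P S s K₁ K₂ K₃ K) (r : R87 P S s K)
include c r

/-- the level -/
def lw (h : LO K P.Z N κ ρ) : Bk.Lv c.st :=
  c.lv h P.Z_pos.le le_rfl fun a x hx γ b y hy =>
    (r.J_cvx N a γ b 1 h.N_pos h.nZ' c.fr1 x hx y hy).1

omit r in
theorem vM_eq (n1 : 1 ≤ N) (p p' : Pt C) (M A : ℝ) :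
    P.vM S N κ s p.a p.x (p.γ⁻¹ * p'.γ) p'.a p'.x 1 M - N * P.f S s p.a p.x 1 -
      P.f S s p'.a p'.x 1 ≤ -(P.q * A) ↔
    (2 * (1 - κ) * M + A) * ((N : ℝ)⁻¹ * P.cb S s) ≤ sv P S s P.Z N p p' M := by
  have n0 := n0 n1
  have h1 := c.G_pos
  have h2 := c.s_pos
  have e : P.vM S N κ s p.a p.x (p.γ⁻¹ * p'.γ) p'.a p'.x 1 M - N * P.f S s p.a p.x 1 -
      P.f S s p'.a p'.x 1 + P.q * A = ((2 * (1 - κ) * M + A) * ((N : ℝ)⁻¹ * P.cb S s) -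
        sv P S s P.Z N p p' M) * (s * N / P.GG S s) := by
    rw [← c.cb_mul]
    unfold Par.vM Par.f sv
    change (_ + corr P S s P.Z N M - _ - _ + _) * _ - _ - _ + _ = _
    field_simp
    ring
  have h3 : 0 < s * N / P.GG S s := by positivity
  rw [le_neg_iff_add_nonpos_right, e]
  exact ⟨fun h => sub_nonpos.1 (le_of_mul_le_mul_right (h.trans_eq (zero_mul _).symm) h3),
    fun h => mul_nonpos_of_nonpos_of_nonneg (sub_nonpos.2 h) h3.le⟩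

theorem deep_iff (h : LO K P.Z N κ ρ) (p p' : Pt C) (A : ℝ) :
    (c.lw r h).Deep p p' A ↔ uu P S N κ s p.a p.x (p.γ⁻¹ * p'.γ) p'.a p'.x ≤ -(P.q * A) := by
  obtain ⟨⟨M, hM, e⟩, h2⟩ := r.v_min N κ p.a (p.γ⁻¹ * p'.γ) p'.a 1 h.N_pos h.nZ' c.fr1 _ p.mem _
    p'.mem
  refine ⟨fun ⟨M', hM', h3⟩ => le_trans ?_ ((c.vM_eq (κ := κ) h.N_pos p p' M' A).2 h3),
    fun h3 => ⟨M, hM, (c.vM_eq h.N_pos p p' M A).1 (e ▸ h3)⟩⟩
  unfold uu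
  linarith [h2 M' hM']

theorem v_le (n1 : 1 ≤ N) (nZ : N ≤ P.Z) (κ0 : 0 ≤ κ) (hξ : Fr (s / 8) ξ)
    (hx : x ∈ C.B (5 / 2) a) (hy : y ∈ C.B (5 / 2) b) :
    P.vv S N κ s a x γ b y ξ ≤ N * P.f S s a x 1 + P.f S s b y ξ + (P.Z : ℝ)⁻¹ := by
  have hM : P.M₀ ∈ Icc P.M₀ (P.M₁ s) := ⟨le_rfl, c.M0_lt.le⟩
  have m0 := M_ge' hM
  refine ((r.v_min N κ a γ b ξ n1 nZ hξ x hx y hy).2 _ hM).trans ?_
  have t9 := (norm_tau P.M₀).trans_le (exp_le_exp.2 (by linarith : -P.M₀ ≤ -9))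
  have h1 := c.st.sm.II_le (c.dens0 (γ := 1) hx c.fr1) (c.densw (γ := γ) hy hξ n1 nZ t9)
  have h2 := (abs_le.1 (c.gb_sub (γ := γ) hy hξ n1 nZ t9)).2
  have h3 := (c.corr_bd n1 P.Z_pos.le le_rfl (by linarith : 0 ≤ P.M₀)).2
  change P.J S N s a x γ b y ξ P.M₀ - P.g S s a x 1 ≤ S.G _ at h1
  change P.cor S N s P.M₀ ≤ _ at h3
  have n0 := n0 n1
  have g0 := c.G_pos
  have s0 := c.s_pos
  have c0 := c.cb_pos
  have z0 := P.Z_pos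
  have h4 : 0 ≤ P.cb S s / N * κ * P.M₀ := by positivity
  have h5 : P.Z ^ 2 * P.cb S s ≤ P.Z ^ 3 * (P.cb S s / N) := by
    rw [← mul_div_assoc, le_div_iff₀ n0, mul_right_comm, pow_succ _ 2]
    gcongr
  have h6 : P.Z ^ 3 + 2 * P.Z + 2 * P.M₀ ≤ (P.Z : ℝ) ^ 5 := by
    have := P.pow_le (show 3 ≤ 4 by norm_num)
    have := P.Z_le_pow (show 1 ≤ 4 by norm_num)
    have := mul_le_mul_of_nonneg_right P.Z_ge' (pow_pos z0 4).le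
    unfold Par.M₀
    linarith [pow_succ' (P.Z : ℝ) 4, pow_pos z0 4]
  have h7 := mul_le_mul_of_nonneg_right h6 (div_pos c0 n0).le
  have e : N * P.f S s a x 1 + P.f S s b y ξ + (P.Z : ℝ)⁻¹ = (P.g S s a x 1 - P.GG S s +
      (P.g S s b y ξ / N - P.GG S s / N) + P.Z ^ 5 * (P.cb S s / N)) * (s * N / P.GG S s) := by
    have e1 : (P.Z : ℝ)⁻¹ = P.Z ^ 5 * (P.cb S s * (s / P.GG S s)) := by
      rw [c.cb_mul, Par.q]
      field_simp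
    rw [e1]
    unfold Par.f
    field_simp
  rw [e]
  exact mul_le_mul_of_nonneg_right (by linarith) (by positivity)

theorem ut_le (n1 : 1 ≤ N) (nZ : N ≤ P.Z) (κ0 : 0 ≤ κ) (hx : x ∈ C.B (5 / 2) a)
    (hy : y ∈ C.B (5 / 2) b) : ut P S N κ s γ a x γ' b y ≤ 1 := by
  have h1 := c.v_le r (γ := γ⁻¹ * γ') n1 nZ κ0 c.fr1 hx hy
  have h2 := c.v_le r (γ := γ'⁻¹ * γ) n1 nZ κ0 c.fr1 hy hx
  have h3 := inv_le_one_of_one_le₀ P.one_le_Z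
  have h4 : (1 : ℝ) ≤ N := by exact_mod_cast n1
  unfold ut uu
  rw [div_le_one (by linarith)]
  linarith

theorem dp_of (h : LO K P.Z N κ ρ) (p p' : Pt C) (hA : ut P S N κ s p.γ p.a p.x p'.γ p'.a p'.x ≤ A) :
    (c.lw r h).Dp p p' (-A * (N + 1) / (2 * P.q)) := by
  have q0 := P.q_pos
  have e : -(P.q * (-A * (N + 1) / (2 * P.q))) = A * (N + 1) / 2 := by field_simp
  rw [ut, div_le_iff₀ (by linarith [h.n0])] at hA
  rw [Bk.Lv.Dp, c.deep_iff r h, c.deep_iff r h, e]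
  by_contra! h1
  linarith [h1.1, h1.2]

theorem ut_of (h : LO K P.Z N κ ρ) (hN : (N : ℝ) + 1 ≤ κ * (N' + 1)) (p p' : Pt C) (hA : A ≤ 0)
    (h1 : (c.lw r h).Deep p p' (κ * (-A * (N' + 1) / (2 * P.q))))
    (h2 : (c.lw r h).Deep p' p (κ * (-A * (N' + 1) / (2 * P.q)))) :
    ut P S N κ s p.γ p.a p.x p'.γ p'.a p'.x ≤ A := by
  have q0 := P.q_pos
  have e : -(P.q * (κ * (-A * (N' + 1) / (2 * P.q)))) = A * (κ * (N' + 1)) / 2 := by field_simp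
  rw [c.deep_iff r h, e] at h1 h2
  rw [ut, div_le_iff₀ (by linarith [h.n0])]
  linarith [mul_le_mul_of_nonpos_left hN hA]

omit r in
theorem κ0 (h : LO K P.Z N κ ρ) : 0 < κ :=
  pos_of_mul_pos_left (show 0 < κ * N by linarith [h.κN, c.K1]) h.n0.le

/-- **Y6**, the chain -/
theorem chain (h : LO K P.Z N κ ρ) (h' : LO K P.Z N' κ' ρ') (hρ : 30 * ρ' * N ≤ κ)
    (hN : (N : ℝ) + 1 ≤ κ * (N' + 1)) (γ : Fin 4 → Γ) (a : Fin 4 → C.I) (x : Fin 4 → Cm n)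
    (g : ∀ i, P.Good S s (a i) (x i)) :
    ut P S N κ s (γ 0) (a 0) (x 0) (γ 3) (a 3) (x 3) ≤
      max (ut P S N' κ' s (γ 0) (a 0) (x 0) (γ 1) (a 1) (x 1))
        (max (ut P S N' κ' s (γ 1) (a 1) (x 1) (γ 2) (a 2) (x 2))
          (ut P S N' κ' s (γ 2) (a 2) (x 2) (γ 3) (a 3) (x 3))) + 1 := by
  obtain ⟨A, hA⟩ : ∃ A, A = max (ut P S N' κ' s (γ 0) (a 0) (x 0) (γ 1) (a 1) (x 1))
        (max (ut P S N' κ' s (γ 1) (a 1) (x 1) (γ 2) (a 2) (x 2))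
          (ut P S N' κ' s (γ 2) (a 2) (x 2) (γ 3) (a 3) (x 3))) := ⟨_, rfl⟩
  have h1 := hA.ge
  rw [max_le_iff, max_le_iff] at h1
  rw [← hA]
  rcases le_total 0 A with h0 | h0
  · linarith [c.ut_le r (γ := γ 0) (γ' := γ 3) h.N_pos h.nZ' (c.κ0 h).le (g 0).1 (g 3).1]
  let p : Fin 4 → Pt C := fun i => ⟨γ i, a i, x i, (g i).1⟩
  have q0 := P.q_pos
  obtain ⟨d1, d2⟩ := Bk.Lv.chain (L := c.lw r h) (L' := c.lw r h') (by
    change 30 * ρ' ≤ (N : ℝ)⁻¹ * κ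
    rwa [le_inv_mul_iff₀ h.n0, mul_comm]) (x₁ := p 0) (x₂ := p 1) (x₃ := p 2) (x₄ := p 3)
    (g 0) (g 1) (g 2) (g 3) (div_nonneg (mul_nonneg (neg_nonneg.2 h0) (by positivity))
      (by positivity)) (c.dp_of r h' (p 0) (p 1) h1.1) (c.dp_of r h' (p 1) (p 2) h1.2.1)
    (c.dp_of r h' (p 2) (p 3) h1.2.2)
  linarith [c.ut_of r h hN (p 0) (p 3) h0 d1 d2]

theorem mono (h : LO K P.Z N κ ρ) (h' : LO K P.Z N' κ' ρ') (hρ : 30 * ρ' * N ≤ κ)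
    (hN : (N : ℝ) + 1 ≤ κ * (N' + 1)) (gx : P.Good S s a x) (gy : P.Good S s b y) :
    ut P S N κ s γ a x γ' b y ≤ ut P S N' κ' s γ a x γ' b y + 1 := by
  have h1 := c.chain r h h' hρ hN ![γ, γ', γ, γ'] ![a, b, a, b] ![x, y, x, y]
    (fun i => by fin_cases i; exacts [gx, gy, gx, gy])
  have e : ut P S N' κ' s γ' b y γ a x = ut P S N' κ' s γ a x γ' b y := by
    unfold ut
    rw [add_comm]
  simp only [Matrix.cons_val] at h1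
  rwa [e, max_self, max_self] at h1

end Cx

end Vale.Agent.P284Y.S12
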