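import Vale.Agent.P284Y.Y.S12.C
import Vale.Agent.P284Y.Y.YS
import Vale.Agent.P284Z.F0.Psh

/-!
# P284Y, block Y, one stage: the assembly
-/

set_option linter.all false

open scoped ContDiff Topology ComplexOrder ENNReal Matrix
open Filter Set Function Metric MeasureTheory

noncomputable section

namespace Vale.Agent.P284Y.S12

open Vale.Agent.P272.K Vale.Agent.P284Z Vale.Agent.P284Z.J Real

/-- **Y8** -/
def StPo : Prop :=
  ∀ (n : ℕ) (Γ E : Type) [Group Γ] [Countable Γ] [TopologicalSpace E] [T2Space E]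
    [MulAction Γ E] [MeasurableSpace E] [BorelSpace E] (C : Cov n Γ E) (K : ℝ) (N : ℕ) (κ : ℝ),
    1 ≤ N → 0 < κ → ∃ c > (0 : ℝ), ∃ (K' : ℝ) (Z₀ : ℕ), ∀ P : Par, Z₀ ≤ P.Z →
      ∀ (μ : Measure (E × ℂ)) (S : MAS (P.Q C) μ) (s K₁ K₂ K₃ ρ : ℝ), Cx P S s K₁ K₂ K₃ K →
        R87 P S s K → LO K P.Z N κ ρ → ∀ a, ∀ x ∈ C.B 2 a, ∀ y ∈ C.B 2 a, ∀ r > (0 : ℝ),
          ‖x - y‖ ≤ r → P.vv S N κ s a x 1 a y 1 ≤ max (c * log r) (-(c * P.L s)) + K'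

/-- **Y7** -/
def StRe : Prop :=
  ∀ (n : ℕ) (Γ E : Type) [Group Γ] [Countable Γ] [TopologicalSpace E] [T2Space E]
    [MulAction Γ E] [MeasurableSpace E] [BorelSpace E] (C : Cov n Γ E) (P : Par)
    (μ : Measure (E × ℂ)) (S : MAS (P.Q C) μ) (s K₁ K₂ K₃ K : ℝ), Cx P S s K₁ K₂ K₃ K →
    R87 P S s K → ∃ m : C.I → Cm n → Γ → ℝ, (∀ a z g, 0 ≤ m a z g) ∧
      (∀ a z, P.Good S s a z → HasSum (m a z) 1) ∧ ∀ N κ ρ, LO K P.Z N κ ρ →
        ∀ a x γ b y, P.Good S s a x → P.Good S s b y → uu P S N κ s a x γ b y ≤ -1 →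
          ∑' g, |m a x g - m b y (γ⁻¹ * g)| ≤ 100 * ρ

theorem psh_more {W : Type} [NormedAddCommGroup W] [NormedSpace ℂ W] {u p : W → ℝ} {U : Set W}
    {a b : ℝ} (hu : ContinuousOn u U) (hp : Continuous p) (h : Psh (fun z => u z + a * p z) U)
    (h' : Psh p U) (hab : a ≤ b) : Psh (fun z => u z + b * p z) U :=
  (h.add (h'.const_mul (sub_nonneg.2 hab))
    (.of_cont (hu.add (continuous_const.mul hp).continuousOn))
    (.of_cont (continuous_const.mul hp).continuousOn)).congr fun z _ => by ring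

theorem psh_nsq {k : ℕ} (U : Set (Cm k)) : Psh nsq U := by
  simpa using psh_of_cHess (u := fun w : Cm k => nsq (w - 0)) (U := U) fun z _ =>
    ⟨(J.sm_nsq 0).contDiffAt.of_le J.two_le, J.hess_nsq 0 z ▸ Matrix.PosSemidef.one⟩

theorem st12_of (h87 : St87) (hP : StPo) (hR : StRe) : St12 := by
  intro n Γ E _ _ _ _ _ _ _ C K₁ K₂ K₃
  obtain ⟨K, k₁, k₂, k₃⟩ : ∃ K, K₁ ≤ K ∧ K₂ ≤ K ∧ K₃ ≤ K :=
    ⟨max K₁ (max K₂ K₃), by simp, by simp, by simp⟩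
  refine ⟨K, 7 * K ^ 3 + 1, fun Λ => ?_⟩
  have κ0 : ∀ l, 0 < Λ.ρ l ^ 2 / 4 := fun l => by have := Λ.ρ_pos l; positivity
  choose c hc K' Z' hp using fun l => hP n Γ E C K (Λ.N l) _ (Λ.N_pos l) (κ0 l)
  refine ⟨c, fun l => 100 * Λ.ρ l, fun l => max (max (K' l) 1) (10 * K ^ 3 * (Λ.N l + 1)), hc,
    by simpa using Λ.tend.const_mul 100, fun j R e R0 he => ?_⟩
  obtain ⟨Z₁, hZ₁⟩ : ∃ Z : ℕ, ∀ l ≤ j, Z' l ≤ Z ∧ 3 * Λ.N l ^ 2 ≤ Z :=
    ⟨∑ l ∈ Finset.range (j + 1), (Z' l + 3 * Λ.N l ^ 2), fun l hl => by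
      have := Finset.single_le_sum (f := fun l => Z' l + 3 * Λ.N l ^ 2) (fun _ _ => Nat.zero_le _)
        (Finset.mem_range.2 (show l < j + 1 by omega))
      omega⟩
  refine ⟨Z₁ + ⌈200 * (n + 2) * K ^ 3⌉₊ + ⌈1 / e⌉₊, fun P hZ μ S s p V sh g a₁ a₂ a₃ a₈ => ?_⟩
  have z₁ : ∀ {x : ℝ}, ⌈x⌉₊ ≤ P.Z → x ≤ P.Z := fun h => (Nat.le_ceil _).trans (Nat.cast_le.2 h)
  have cx : Cx P S s K₁ K₂ K₃ K := ⟨g, a₁, a₂, a₃, a₈.stg, k₁, k₂, k₃, z₁ (by omega)⟩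
  obtain ⟨r, rp⟩ := h87 n Γ E C μ P S s K₁ K₂ K₃ K cx
  obtain ⟨m, m₀, m₁, m₂⟩ := hR n Γ E C P μ S s K₁ K₂ K₃ K cx r
  have R8 : R ≤ s / 8 := a₈.R_le.trans (by linarith [cx.lo_le])
  have fr : ∀ {ξ : Mx n}, Fr R ξ → Fr (s / 8) ξ := fun h => fr_mono h R8
  have pin := fun i hi => rp p (V i) (sh i) R _ R0 R8 cx.low (a₈.pin i hi)
  have lo : ∀ l ≤ j, LO K P.Z (Λ.N l) (Λ.ρ l ^ 2 / 4) (Λ.ρ l) := fun l hl =>
    ⟨Λ.N_pos l, by exact_mod_cast (hZ₁ l hl).2.trans (by omega),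
      by linarith [Λ.K_le l, cx.K1], by linarith, (Λ.ρ_pos l).le, Λ.ρ_le l⟩
  have e₁ : (P.Z : ℝ)⁻¹ ≤ e := by
    rw [inv_le_comm₀ P.Z_pos he, ← one_div]
    exact z₁ (by omega)
  have e₂ : P.Z * P.q ≤ e := by
    refine le_trans ?_ e₁
    rw [← one_div, le_div_iff₀ P.Z_pos, ← P.q_mul, mul_right_comm, mul_comm, ← sq]
    exact mul_le_mul_of_nonneg_left (P.pow_le (by norm_num)) P.q_pos.le
  have e₃ : P.q ≤ e := P.q_le_inv.trans e₁
  have c₁ : ∀ l, 30 * Λ.ρ (l + 1) * Λ.N l ≤ Λ.ρ l ^ 2 / 4 := fun l => by linarith [Λ.succ l]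
  have c₂ : ∀ l, (Λ.N l : ℝ) + 1 ≤ Λ.ρ l ^ 2 / 4 * (Λ.N (l + 1) + 1) := fun l => by
    linarith [Λ.N_succ l, κ0 l]
  have o₁ : ∀ l, (1 : ℝ) ≤ max (max (K' l) 1) (10 * K ^ 3 * (Λ.N l + 1)) := fun l =>
    (le_max_right _ _).trans (le_max_left _ _)
  have n₁ : Continuous fun q : Cm n × Cm n => nsq q.1 := Lib.cont_nsq.comp continuous_fst
  have n₂ : Continuous fun q : Cm n × Cm n => nsq q.2 := Lib.cont_nsq.comp continuous_snd
  refine ⟨fun l => P.vv S (Λ.N l) (Λ.ρ l ^ 2 / 4) s, m,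
    { f_cont := fun a ξ h => r.f_cont a ξ (fr h)
      f_psh := fun a ξ h => psh_more (r.f_cont a ξ (fr h)) Lib.cont_nsq (r.f_psh a ξ (fr h))
        (psh_nsq _) e₃
      f_le := fun a z hz => div_nonpos_of_nonpos_of_nonneg (mul_nonpos_of_nonpos_of_nonneg
        (sub_nonpos.2 (cx.g_le hz)) cx.s_pos.le) cx.G_pos.le
      f_mono := fun a ξ h h' z hz => (r.f_mono a ξ (fr h) h' z hz).trans (add_le_add_right e₂ _)
      f_top := ?_
      f_ch := fun γ a b z hz z' hz' h => (r.f_ch γ a 1 b z hz z' hz' h).trans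
        (add_le_add_right (le_add_of_nonneg_right zero_le_one) _)
      v_cont := fun l hl a γ b ξ h => r.v_cont _ _ a γ b ξ (lo l hl).N_pos (lo l hl).nZ' (fr h)
      v_psh := fun l hl a γ b ξ h => psh_more
        (r.v_cont _ _ a γ b ξ (lo l hl).N_pos (lo l hl).nZ' (fr h)) (n₁.add n₂)
        (r.v_psh _ _ a γ b ξ (lo l hl).N_pos (lo l hl).nZ' (fr h))
        (((psh_nsq _).fst _).add ((psh_nsq _).snd _) (.of_cont n₁.continuousOn)
          (.of_cont n₂.continuousOn)) e₂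
      v_le := fun l hl a γ b ξ h x hx y hy => (cx.v_le r (lo l hl).N_pos (lo l hl).nZ' (κ0 l).le
        (fr h) hx hy).trans (add_le_add_right e₁ _)
      v_mono := fun l hl a γ b ξ h h' x hx y hy => (r.v_mono _ _ a γ b ξ (lo l hl).N_pos
        (lo l hl).nZ' (fr h) h' x hx y hy).trans (add_le_add_right e₂ _)
      v_ch := fun l hl g a a' γ γ' b b' x hx x' hx' y hy y' hy' h h' =>
        (r.v_ch _ _ g a a' γ γ' b b' (lo l hl).N_pos (lo l hl).nZ' x hx x' hx' y hy y' hy' h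
          h').trans (add_le_add_right (le_max_right _ _) _)
      chain := fun l hl γ a x h => (cx.chain r (lo l (by omega)) (lo _ hl) (c₁ l) (c₂ l) γ a x
        h).trans (add_le_add_right (o₁ l) _)
      mono := fun l hl γ a x γ' b y h h' => (cx.mono r (lo l (by omega)) (lo _ hl) (c₁ l) (c₂ l) h
        h').trans (add_le_add_right (o₁ l) _)
      pole := fun l hl a x hx y hy t ht h => (hp l P ((hZ₁ l hl).1.trans (by omega)) μ S s K₁ K₂ K₃ _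
        cx r (lo l hl) a x hx y hy t ht h).trans
          (add_le_add_right ((le_max_left _ _).trans (le_max_left _ _)) _)
      m_nonneg := m₀
      m_sum := m₁
      reiter := fun l hl => m₂ _ _ _ (lo l hl)
      pin_f := fun i hi γ a z ξ γ' b z' ξ' h₁ h₂ h₃ h₄ h₅ h₆ =>
        ((pin i hi).pin_f γ a z ξ γ' b z' ξ' h₁ h₂ h₃ h₄ h₅ h₆).trans (by
          change _ ≤ e
          linarith)
      pin_v := fun l i hl hi g a₀ x γ a z ξ γ' b z' ξ' h₀ h₁ h₂ h₃ h₄ h₅ h₆ =>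
        ((pin i hi).pin_v _ _ g a₀ x γ a z ξ γ' b z' ξ' (lo l hl).N_pos (lo l hl).nZ' h₀.1 h₁ h₂ h₃ h₄
          h₅ h₆).trans (by
            change _ ≤ e
            linarith) }⟩
  obtain ⟨a, x, hx, h⟩ := a₈.top
  obtain ⟨γ, b, z, hz, e⟩ := C.cover (C.pt 1 a x)
  have hz' : z ∈ C.B 1 b := by rwa [Cov.B, one_mul]
  have := r.f_ch 1 a γ b x hx z (C.B_mono (by norm_num) b hz') e
  exact ⟨b, z, hz', by
    change -(7 * K ^ 3 + 1) ≤ P.f S s b z 1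
    linarith⟩

end Vale.Agent.P284Y.S12
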